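import Mathlib

/-!
P092, TEAM D, [KAK-SUP] (helper835): the support chain.
`X` (points) and `Y` (lines) are compact Hausdorff (normal is enough where stated), `Inc` a closed
incidence relation.  If `β`, `l` are additive maps on `C(X, ℂ)`, `C(Y, ℂ)` that commute and whose
products vanish off incidence, then a chain of products vanishes as soon as there is no chain of
incident points and lines through the supports.
-/

namespace Vale.Agent.P092.H835

open Set Topology

section cut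

variable {X : Type*} [TopologicalSpace X] [NormalSpace X]

/-- A continuous cut-off: `1` near `F`, supported in the open set `W`. -/
theorem exists_cut {F W : Set X} (hF : IsClosed F) (hW : IsOpen W) (h : F ⊆ W) :
    ∃ χ : C(X, ℂ), tsupport χ ⊆ W ∧ Disjoint (tsupport (fun x => 1 - χ x)) F ∧
      ∀ x, ‖χ x‖ ≤ 1 := by
  obtain ⟨V, hV, hFV, hVW⟩ := normal_exists_closure_subset hF hW h
  obtain ⟨V₂, hV₂, hVV₂, hV₂W⟩ := normal_exists_closure_subset isClosed_closure hW hVW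
  have hd : Disjoint V₂ᶜ (closure V) := disjoint_compl_left_iff_subset.2 hVV₂
  obtain ⟨g, h0, h1, h01⟩ :=
    exists_continuous_zero_one_of_isClosed hV₂.isClosed_compl isClosed_closure hd
  refine ⟨⟨fun x => (g x : ℂ), Complex.continuous_ofReal.comp g.continuous⟩, ?_, ?_, ?_⟩
  · refine subset_trans (closure_mono ?_) hV₂W
    intro x hx
    by_contra hxV
    apply hx
    have : g x = 0 := h0 hxV
    simp [this]
  · have hs : tsupport (fun x => 1 - ((g x : ℝ) : ℂ)) ⊆ Vᶜ := by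
      refine closure_minimal ?_ hV.isClosed_compl
      intro x hx hxV
      apply hx
      have : g x = 1 := h1 (subset_closure hxV)
      simp [this]
    exact disjoint_left.2 fun x hx hxF => hs hx (hFV hxF)
  · intro x
    have := h01 x
    simp only [ContinuousMap.coe_mk, Complex.norm_real, Real.norm_eq_abs]
    exact abs_le.2 ⟨by linarith [this.1], this.2⟩

end cut

section pair

variable {X Y : Type*} [TopologicalSpace X] [CompactSpace X] [T2Space X]
  [TopologicalSpace Y] [CompactSpace Y] [T2Space Y]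
  {A : Type*} [NonUnitalNonAssocSemiring A]

/-- Products off incidence vanish. -/
def Off (Inc : X → Y → Prop) (β : C(X, ℂ) → A) (l : C(Y, ℂ) → A) : Prop :=
  ∀ (f : C(X, ℂ)) (n : C(Y, ℂ)),
    (∀ x ∈ tsupport f, ∀ y ∈ tsupport n, ¬ Inc x y) → β f * l n = 0

omit [T2Space X] [CompactSpace Y] [T2Space Y] in
/-- The lines through a closed set of points form a closed set. -/
theorem isClosed_meet {Inc : X → Y → Prop} (hI : IsClosed {p : X × Y | Inc p.1 p.2})
    {S : Set X} (hS : IsClosed S) : IsClosed {y : Y | ∃ x ∈ S, Inc x y} := by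
  have h : {y : Y | ∃ x ∈ S, Inc x y} =
      Prod.snd '' ({p : X × Y | Inc p.1 p.2} ∩ (Prod.fst ⁻¹' S)) := by
    ext y
    constructor
    · rintro ⟨x, hx, hxy⟩
      exact ⟨(x, y), ⟨hxy, hx⟩, rfl⟩
    · rintro ⟨⟨x, y'⟩, ⟨h1, h2⟩, rfl⟩
      exact ⟨x, h2, h1⟩
  rw [h]
  exact isClosedMap_snd_of_compactSpace _ (hI.inter (hS.preimage continuous_fst))

omit [CompactSpace X] [T2Space X] [T2Space Y] in
/-- The points on a closed set of lines form a closed set. -/
theorem isClosed_meet' {Inc : X → Y → Prop} (hI : IsClosed {p : X × Y | Inc p.1 p.2})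
    {T : Set Y} (hT : IsClosed T) : IsClosed {x : X | ∃ y ∈ T, Inc x y} := by
  have h : {x : X | ∃ y ∈ T, Inc x y} =
      Prod.fst '' ({p : X × Y | Inc p.1 p.2} ∩ (Prod.snd ⁻¹' T)) := by
    ext x
    constructor
    · rintro ⟨y, hy, hxy⟩
      exact ⟨(x, y), ⟨hxy, hy⟩, rfl⟩
    · rintro ⟨⟨x', y⟩, ⟨h1, h2⟩, rfl⟩
      exact ⟨y, h2, h1⟩
  rw [h]
  exact isClosedMap_fst_of_compactSpace _ (hI.inter (hT.preimage continuous_snd))

omit [T2Space X] [T2Space Y] in
/-- Two closed sets without incident pair have open neighbourhoods without incident pair. -/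
theorem exists_nhds_off {Inc : X → Y → Prop} (hI : IsClosed {p : X × Y | Inc p.1 p.2})
    {S : Set X} {T : Set Y} (hS : IsClosed S) (hT : IsClosed T)
    (h : ∀ x ∈ S, ∀ y ∈ T, ¬ Inc x y) :
    ∃ (V : Set X) (W : Set Y), IsOpen V ∧ IsOpen W ∧ S ⊆ V ∧ T ⊆ W ∧
      ∀ x ∈ V, ∀ y ∈ W, ¬ Inc x y := by
  obtain ⟨V, W, hV, hW, hSV, hTW, hVW⟩ := generalized_tube_lemma hS.isCompact hT.isCompact
    hI.isOpen_compl (s := S) (t := T) (by
      rintro ⟨x, y⟩ ⟨hx, hy⟩
      exact h x hx y hy)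
  exact ⟨V, W, hV, hW, hSV, hTW, fun x hx y hy hxy => hVW (mk_mem_prod hx hy) hxy⟩

end pair

section chain

variable {X Y : Type*} [TopologicalSpace X] [CompactSpace X] [T2Space X]
  [TopologicalSpace Y] [CompactSpace Y] [T2Space Y]
  {A : Type*} [NonUnitalRing A]

/-- Shrinking the line factor: only the lines meeting the support of `f` count. -/
theorem shrink_line {Inc : X → Y → Prop} (hI : IsClosed {p : X × Y | Inc p.1 p.2})
    {β : C(X, ℂ) → A} {l : C(Y, ℂ) → A} (hl : ∀ a b, l (a + b) = l a + l b)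
    (hoff : Off Inc β l) (f : C(X, ℂ)) (n : C(Y, ℂ)) {W : Set Y} (hW : IsOpen W)
    (h : {y | y ∈ tsupport n ∧ ∃ x ∈ tsupport f, Inc x y} ⊆ W) :
    ∃ χ : C(Y, ℂ), tsupport χ ⊆ W ∧ (∀ y, ‖χ y‖ ≤ 1) ∧ β f * l n = β f * l (n * χ) := by
  have hF : IsClosed {y | y ∈ tsupport n ∧ ∃ x ∈ tsupport f, Inc x y} :=
    (isClosed_tsupport n).inter (isClosed_meet hI (isClosed_tsupport f))
  obtain ⟨χ, h1, h2, h3⟩ := exists_cut hF hW h
  refine ⟨χ, h1, h3, ?_⟩
  have e : n = n * χ + n * (1 - χ) := by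
    ext y; simp; ring
  have e0 : β f * l (n * (1 - χ)) = 0 := by
    apply hoff
    intro x hx y hy hxy
    have hy1 : y ∈ tsupport n := tsupport_mul_subset_left (f := n) (g := fun y => 1 - χ y) hy
    have hy2 : y ∈ tsupport (fun y => 1 - χ y) :=
      tsupport_mul_subset_right (f := n) (g := fun y => 1 - χ y) hy
    exact disjoint_left.1 h2 hy2 ⟨hy1, x, hx, hxy⟩
  conv_lhs => rw [e, hl, mul_add, e0, add_zero]

/-- Shrinking the point factor: only the points on the support of `n` count. -/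
theorem shrink_point {Inc : X → Y → Prop} (hI : IsClosed {p : X × Y | Inc p.1 p.2})
    {β : C(X, ℂ) → A} {l : C(Y, ℂ) → A} (hβ : ∀ a b, β (a + b) = β a + β b)
    (hoff : Off Inc β l) (f : C(X, ℂ)) (n : C(Y, ℂ)) {V : Set X} (hV : IsOpen V)
    (h : {x | x ∈ tsupport f ∧ ∃ y ∈ tsupport n, Inc x y} ⊆ V) :
    ∃ χ : C(X, ℂ), tsupport χ ⊆ V ∧ (∀ x, ‖χ x‖ ≤ 1) ∧ β f * l n = β (f * χ) * l n := by
  have hF : IsClosed {x | x ∈ tsupport f ∧ ∃ y ∈ tsupport n, Inc x y} :=
    (isClosed_tsupport f).inter (isClosed_meet' hI (isClosed_tsupport n))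
  obtain ⟨χ, h1, h2, h3⟩ := exists_cut hF hV h
  refine ⟨χ, h1, h3, ?_⟩
  have e : f = f * χ + f * (1 - χ) := by
    ext y; simp; ring
  have e0 : β (f * (1 - χ)) * l n = 0 := by
    apply hoff
    intro x hx y hy hxy
    have hx1 : x ∈ tsupport f := tsupport_mul_subset_left (f := f) (g := fun y => 1 - χ y) hx
    have hx2 : x ∈ tsupport (fun y => 1 - χ y) :=
      tsupport_mul_subset_right (f := f) (g := fun y => 1 - χ y) hx
    exact disjoint_left.1 h2 hx2 ⟨hx1, y, hy, hxy⟩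
  conv_lhs => rw [e, hβ, add_mul, e0, add_zero]

/-- **Support chain.**  `(b, l)`, `(c, l)`, `(c, m)` are commuting pairs carried by incidence.
If there are no `x ∈ tsupport f`, `ν ∈ tsupport n`, `z ∈ tsupport u`, `μ ∈ tsupport g` with
`x ~ ν`, `z ~ ν`, `z ~ μ`, then `m g * c u * l n * b f = 0`. -/
theorem chain_zero {Inc : X → Y → Prop} (hI : IsClosed {p : X × Y | Inc p.1 p.2})
    {b c : C(X, ℂ) → A} {l m : C(Y, ℂ) → A}
    (hc : ∀ p q, c (p + q) = c p + c q) (hl : ∀ p q, l (p + q) = l p + l q)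
    (cbl : ∀ f n, b f * l n = l n * b f) (ccm : ∀ f n, c f * m n = m n * c f)
    (obl : Off Inc b l) (ocl : Off Inc c l) (ocm : Off Inc c m)
    (g : C(Y, ℂ)) (u : C(X, ℂ)) (n : C(Y, ℂ)) (f : C(X, ℂ))
    (h : ∀ x ∈ tsupport f, ∀ ν ∈ tsupport n, ∀ z ∈ tsupport u, ∀ μ ∈ tsupport g,
      Inc x ν → Inc z ν → ¬ Inc z μ) :
    m g * c u * l n * b f = 0 := by
  set S : Set X := {z | z ∈ tsupport u ∧ ∃ μ ∈ tsupport g, Inc z μ} with hS
  set T : Set Y := {ν | ν ∈ tsupport n ∧ ∃ x ∈ tsupport f, Inc x ν} with hT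
  have hSc : IsClosed S := (isClosed_tsupport u).inter (isClosed_meet' hI (isClosed_tsupport g))
  have hTc : IsClosed T := (isClosed_tsupport n).inter (isClosed_meet hI (isClosed_tsupport f))
  obtain ⟨V, W, hV, hW, hSV, hTW, hVW⟩ := exists_nhds_off hI hSc hTc (by
    rintro z ⟨hz, μ, hμ, hzμ⟩ ν ⟨hν, x, hx, hxν⟩ hzν
    exact h x hx ν hν z hz μ hμ hxν hzν hzμ)
  obtain ⟨θ, hθ, -, eθ⟩ := shrink_point hI hc ocm u g hV hSV
  obtain ⟨χ, hχ, -, eχ⟩ := shrink_line hI hl obl f n hW hTW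
  have e1 : m g * c u = m g * c (u * θ) := by rw [← ccm, eθ, ccm]
  have e2 : l n * b f = l (n * χ) * b f := by rw [← cbl, eχ, cbl]
  have e3 : c (u * θ) * l (n * χ) = 0 := by
    apply ocl
    intro z hz ν hν
    exact hVW z (hθ (tsupport_mul_subset_right (f := u) (g := θ) hz)) ν
      (hχ (tsupport_mul_subset_right (f := n) (g := χ) hν))
  calc m g * c u * l n * b f = m g * c u * (l n * b f) := mul_assoc _ _ _
    _ = m g * (c (u * θ) * l (n * χ)) * b f := by rw [e1, e2]; simp only [mul_assoc]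
    _ = 0 := by rw [e3]; simp

/-- The adjoint order `b f * l n * c u * m g = 0`. -/
theorem chain_zero' {Inc : X → Y → Prop} (hI : IsClosed {p : X × Y | Inc p.1 p.2})
    {b c : C(X, ℂ) → A} {l m : C(Y, ℂ) → A}
    (hc : ∀ p q, c (p + q) = c p + c q) (hl : ∀ p q, l (p + q) = l p + l q)
    (ccl : ∀ f n, c f * l n = l n * c f)
    (obl : Off Inc b l) (ocl : Off Inc c l) (ocm : Off Inc c m)
    (g : C(Y, ℂ)) (u : C(X, ℂ)) (n : C(Y, ℂ)) (f : C(X, ℂ))
    (h : ∀ x ∈ tsupport f, ∀ ν ∈ tsupport n, ∀ z ∈ tsupport u, ∀ μ ∈ tsupport g,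
      Inc x ν → Inc z ν → ¬ Inc z μ) :
    b f * l n * c u * m g = 0 := by
  set S : Set X := {z | z ∈ tsupport u ∧ ∃ μ ∈ tsupport g, Inc z μ} with hS
  set T : Set Y := {ν | ν ∈ tsupport n ∧ ∃ x ∈ tsupport f, Inc x ν} with hT
  have hSc : IsClosed S := (isClosed_tsupport u).inter (isClosed_meet' hI (isClosed_tsupport g))
  have hTc : IsClosed T := (isClosed_tsupport n).inter (isClosed_meet hI (isClosed_tsupport f))
  obtain ⟨V, W, hV, hW, hSV, hTW, hVW⟩ := exists_nhds_off hI hSc hTc (by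
    rintro z ⟨hz, μ, hμ, hzμ⟩ ν ⟨hν, x, hx, hxν⟩ hzν
    exact h x hx ν hν z hz μ hμ hxν hzν hzμ)
  obtain ⟨θ, hθ, -, eθ⟩ := shrink_point hI hc ocm u g hV hSV
  obtain ⟨χ, hχ, -, eχ⟩ := shrink_line hI hl obl f n hW hTW
  have e3 : l (n * χ) * c (u * θ) = 0 := by
    rw [← ccl]
    apply ocl
    intro z hz ν hν
    exact hVW z (hθ (tsupport_mul_subset_right (f := u) (g := θ) hz)) ν
      (hχ (tsupport_mul_subset_right (f := n) (g := χ) hν))
  calc b f * l n * c u * m g = (b f * l n) * (c u * m g) := mul_assoc _ _ _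
    _ = b f * (l (n * χ) * c (u * θ)) * m g := by rw [eθ, eχ]; simp only [mul_assoc]
    _ = 0 := by rw [e3]; simp

end chain

end Vale.Agent.P092.H835
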