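import Vale.Agent.P092.H835.PlN

/-!
# P092, Team N, [N-K-PL] part 2 (B): the inequalities (F1)-(F4) of helper350 (#6143)

`k` any normed field, `ι` any finite type, sup norms.  2-vectors are `ω : ι × ι → k`,
`A₂ = A ⊗ₖ A`, `w3 x ω = x ∧ ω`.
-/

set_option linter.unusedSectionVars false

namespace Vale.Agent.P092.H835.PlF

open Finset Matrix Vale.Agent.P092.H820 Vale.Agent.P092.H87.N Vale.Agent.P092.H835.Pl
open scoped Kronecker

variable {k : Type*} [NormedField k] {ι : Type*} [Fintype ι]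

/-- alternating 2-vectors -/
structure Alt (ω : ι × ι → k) : Prop where
  diag : ∀ i, ω (i, i) = 0
  anti : ∀ i j, ω (i, j) = - ω (j, i)

theorem alt_wd (x y : ι → k) : Alt (wd x y) :=
  ⟨fun i => by simp only [wd]; ring, fun i j => by simp only [wd]; ring⟩

/-- `x ∧ ω` -/
def w3 (x : ι → k) (ω : ι × ι → k) : ι × (ι × ι) → k :=
  fun p => x p.1 * ω (p.2.1, p.2.2) - x p.2.1 * ω (p.1, p.2.2) + x p.2.2 * ω (p.1, p.2.1)

/-- the linear form `r` on `X` -/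
def dt (r X : ι → k) : k := ∑ a, r a * X a

/-- the bilinear form of `Ω` -/
def bl (Ω : ι × ι → k) (s t : ι → k) : k := ∑ b, ∑ c, s b * t c * Ω (b, c)

/-- the trilinear form of `T` -/
def tri (T : ι × (ι × ι) → k) (r s t : ι → k) : k :=
  ∑ a, ∑ b, ∑ c, r a * s b * t c * T (a, (b, c))

theorem bl_self {Ω : ι × ι → k} (h : Alt Ω) (s : ι → k) : bl Ω s s = 0 := by
  classical
  unfold bl
  rw [← Finset.sum_product']
  refine Finset.sum_involution (fun p _ => (p.2, p.1)) (fun p _ => ?_) (fun p _ hp he => ?_)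
    (fun p _ => Finset.mem_product.2 ⟨Finset.mem_univ _, Finset.mem_univ _⟩) (fun p _ => rfl)
  · rw [h.anti p.1 p.2]; ring
  · apply hp
    have e : p.2 = p.1 := congrArg Prod.fst he
    rw [← e, h.diag, mul_zero]

theorem bl_anti {Ω : ι × ι → k} (h : Alt Ω) (s t : ι → k) : bl Ω s t = - bl Ω t s := by
  unfold bl
  rw [Finset.sum_comm, ← Finset.sum_neg_distrib]
  refine Finset.sum_congr rfl fun b _ => ?_
  rw [← Finset.sum_neg_distrib]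
  refine Finset.sum_congr rfl fun c _ => ?_
  rw [h.anti c b]; ring

theorem bl_add_left (Ω : ι × ι → k) (s s' t : ι → k) : bl Ω (s + s') t = bl Ω s t + bl Ω s' t := by
  simp only [bl, Pi.add_apply, add_mul, Finset.sum_add_distrib]

theorem bl_add_right (Ω : ι × ι → k) (s t t' : ι → k) :
    bl Ω s (t + t') = bl Ω s t + bl Ω s t' := by
  simp only [bl, Pi.add_apply, mul_add, add_mul, Finset.sum_add_distrib]

theorem bl_smul_left (Ω : ι × ι → k) (c : k) (s t : ι → k) : bl Ω (c • s) t = c * bl Ω s t := by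
  simp only [bl, Pi.smul_apply, smul_eq_mul, Finset.mul_sum]
  exact Finset.sum_congr rfl fun b _ => Finset.sum_congr rfl fun d _ => by ring

theorem bl_smul_right (Ω : ι × ι → k) (c : k) (s t : ι → k) : bl Ω s (c • t) = c * bl Ω s t := by
  simp only [bl, Pi.smul_apply, smul_eq_mul, Finset.mul_sum]
  exact Finset.sum_congr rfl fun b _ => Finset.sum_congr rfl fun d _ => by ring

theorem bl_le {Ω : ι × ι → k} {s t : ι → k} {a b M : ℝ} (hs : ∀ i, ‖s i‖ ≤ a)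
    (ht : ∀ i, ‖t i‖ ≤ b) (hM : ∀ i j, ‖Ω (i, j)‖ ≤ M) (ha : 0 ≤ a) (hb : 0 ≤ b) :
    ‖bl Ω s t‖ ≤ cn ι ^ 2 * (a * b * M) := by
  have h1 : ∀ i j, ‖s i * t j * Ω (i, j)‖ ≤ a * b * M := by
    intro i j
    rw [norm_mul, norm_mul]
    exact mul_le_mul (mul_le_mul (hs i) (ht j) (norm_nonneg _) ha) (hM i j) (norm_nonneg _)
      (by positivity)
  calc ‖bl Ω s t‖ ≤ ∑ i, ∑ j, ‖s i * t j * Ω (i, j)‖ :=
        (norm_sum_le _ _).trans (Finset.sum_le_sum fun i _ => norm_sum_le _ _)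
    _ ≤ ∑ _i : ι, ∑ _j : ι, a * b * M :=
        Finset.sum_le_sum fun i _ => Finset.sum_le_sum fun j _ => h1 i j
    _ = _ := by
        simp only [Finset.sum_const, Finset.card_univ, nsmul_eq_mul, cn]; ring

theorem tri_le {T : ι × (ι × ι) → k} {r s t : ι → k} {a b c M : ℝ} (hr : ∀ i, ‖r i‖ ≤ a)
    (hs : ∀ i, ‖s i‖ ≤ b) (ht : ∀ i, ‖t i‖ ≤ c) (hM : ∀ i j l, ‖T (i, (j, l))‖ ≤ M)
    (ha : 0 ≤ a) (hb : 0 ≤ b) (hc : 0 ≤ c) :
    ‖tri T r s t‖ ≤ cn ι ^ 3 * (a * b * c * M) := by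
  have h1 : ∀ i j l, ‖r i * s j * t l * T (i, (j, l))‖ ≤ a * b * c * M := by
    intro i j l
    rw [norm_mul, norm_mul, norm_mul]
    exact mul_le_mul (mul_le_mul (mul_le_mul (hr i) (hs j) (norm_nonneg _) ha) (ht l)
      (norm_nonneg _) (by positivity)) (hM i j l) (norm_nonneg _) (by positivity)
  calc ‖tri T r s t‖ ≤ ∑ i, ∑ j, ∑ l, ‖r i * s j * t l * T (i, (j, l))‖ :=
        (norm_sum_le _ _).trans (Finset.sum_le_sum fun i _ =>
          (norm_sum_le _ _).trans (Finset.sum_le_sum fun j _ => norm_sum_le _ _))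
    _ ≤ ∑ _i : ι, ∑ _j : ι, ∑ _l : ι, a * b * c * M :=
        Finset.sum_le_sum fun i _ => Finset.sum_le_sum fun j _ =>
          Finset.sum_le_sum fun l _ => h1 i j l
    _ = _ := by
        simp only [Finset.sum_const, Finset.card_univ, nsmul_eq_mul, cn]; ring

/-- the trilinear form of `X ∧ Ω` -/
theorem tri_w3 (X : ι → k) (Ω : ι × ι → k) (r s t : ι → k) :
    tri (w3 X Ω) r s t = dt r X * bl Ω s t - dt s X * bl Ω r t + dt t X * bl Ω r s := by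
  have e1 : dt r X * bl Ω s t = ∑ a, ∑ b, ∑ c, r a * s b * t c * (X a * Ω (b, c)) := by
    unfold dt bl
    rw [Finset.sum_mul]
    refine Finset.sum_congr rfl fun a _ => ?_
    rw [Finset.mul_sum]
    refine Finset.sum_congr rfl fun b _ => ?_
    rw [Finset.mul_sum]
    exact Finset.sum_congr rfl fun c _ => by ring
  have e2 : dt s X * bl Ω r t = ∑ a, ∑ b, ∑ c, r a * s b * t c * (X b * Ω (a, c)) := by
    rw [Finset.sum_comm]
    unfold dt bl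
    rw [Finset.sum_mul]
    refine Finset.sum_congr rfl fun a _ => ?_
    rw [Finset.mul_sum]
    refine Finset.sum_congr rfl fun b _ => ?_
    rw [Finset.mul_sum]
    exact Finset.sum_congr rfl fun c _ => by ring
  have e3 : dt t X * bl Ω r s = ∑ a, ∑ b, ∑ c, r a * s b * t c * (X c * Ω (a, b)) := by
    have h : ∀ a, (∑ b, ∑ c, r a * s b * t c * (X c * Ω (a, b))) =
        ∑ c, ∑ b, r a * s b * t c * (X c * Ω (a, b)) := fun a => Finset.sum_comm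
    rw [Finset.sum_congr rfl fun a _ => h a, Finset.sum_comm]
    unfold dt bl
    rw [Finset.sum_mul]
    refine Finset.sum_congr rfl fun a _ => ?_
    rw [Finset.mul_sum]
    refine Finset.sum_congr rfl fun b _ => ?_
    rw [Finset.mul_sum]
    exact Finset.sum_congr rfl fun c _ => by ring
  rw [e1, e2, e3]
  simp only [tri, ← Finset.sum_sub_distrib, ← Finset.sum_add_distrib]
  refine Finset.sum_congr rfl fun a _ => Finset.sum_congr rfl fun b _ =>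
    Finset.sum_congr rfl fun c _ => ?_
  simp only [w3]; ring

/-! ## matrices -/

/-- `Λ²A` (on all 2-tensors) -/
abbrev sq (A : Matrix ι ι k) : Matrix (ι × ι) (ι × ι) k := A ⊗ₖ A

theorem sq_apply (A : Matrix ι ι k) (ω : ι × ι → k) (i j : ι) :
    (sq A *ᵥ ω) (i, j) = bl ω (A i) (A j) := by
  simp only [Matrix.mulVec, dotProduct, Fintype.sum_prod_type, Matrix.kroneckerMap_apply, bl]

theorem sq_wd (A : Matrix ι ι k) (x y : ι → k) : sq A *ᵥ wd x y = wd (A *ᵥ x) (A *ᵥ y) := by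
  funext p
  obtain ⟨i, j⟩ := p
  rw [sq_apply]
  have := forms (fun l => A i l) (fun m => A j m) x y
  simp only [wd, Matrix.mulVec, dotProduct, bl]
  rw [this]
  rfl

theorem alt_sq (A : Matrix ι ι k) {ω : ι × ι → k} (h : Alt ω) : Alt (sq A *ᵥ ω) :=
  ⟨fun i => by rw [sq_apply, bl_self h], fun i j => by rw [sq_apply, sq_apply, bl_anti h]⟩

theorem w3_sq (A : Matrix ι ι k) (X : ι → k) (Ω : ι × ι → k) (i j l : ι) :
    w3 (A *ᵥ X) (sq A *ᵥ Ω) (i, (j, l)) = tri (w3 X Ω) (A i) (A j) (A l) := by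
  rw [tri_w3]
  simp only [w3, sq_apply]
  rfl

/-- rank one plus remainder: the 2-vectors -/
theorem up2 {B E : Matrix ι ι k} {v φ : ι → k} (hB : ∀ i j, B i j = v i * φ j + E i j)
    {P Q : ℝ} (hP : ∀ i j, ‖v i * φ j‖ ≤ P) (hQ : ∀ i j, ‖E i j‖ ≤ Q)
    {Ω : ι × ι → k} (h : Alt Ω) {M : ℝ} (hM : ∀ i j, ‖Ω (i, j)‖ ≤ M) (i j : ι) :
    ‖(sq B *ᵥ Ω) (i, j)‖ ≤ cn ι ^ 2 * ((2 * P * Q + Q ^ 2) * M) := by
  have hP0 : 0 ≤ P := (norm_nonneg _).trans (hP i i)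
  have hQ0 : 0 ≤ Q := (norm_nonneg _).trans (hQ i i)
  have hb : ∀ i, B i = v i • φ + E i := fun i => funext fun j => hB i j
  have e : (sq B *ᵥ Ω) (i, j) = bl Ω (v i • φ) (E j) + bl Ω (E i) (v j • φ) + bl Ω (E i) (E j) := by
    rw [sq_apply, hb i, hb j, bl_add_left, bl_add_right, bl_add_right]
    have : bl Ω (v i • φ) (v j • φ) = 0 := by
      rw [bl_smul_left, bl_smul_right, bl_self h, mul_zero, mul_zero]
    rw [this]; ring
  rw [e]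
  have a1 := bl_le (Ω := Ω) (s := v i • φ) (t := E j) (fun x => hP i x) (fun x => hQ j x) hM hP0 hQ0
  have a2 := bl_le (Ω := Ω) (s := E i) (t := v j • φ) (fun x => hQ i x) (fun x => hP j x) hM hQ0 hP0
  have a3 := bl_le (Ω := Ω) (s := E i) (t := E j) (fun x => hQ i x) (fun x => hQ j x) hM hQ0 hQ0
  refine (norm_add₃_le).trans ?_
  calc _ ≤ cn ι ^ 2 * (P * Q * M) + cn ι ^ 2 * (Q * P * M) + cn ι ^ 2 * (Q * Q * M) :=
        add_le_add (add_le_add a1 a2) a3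
    _ = _ := by ring

/-- rank one plus remainder: `X ∧ Ω` -/
theorem up3 {B E : Matrix ι ι k} {v φ : ι → k} (hB : ∀ i j, B i j = v i * φ j + E i j)
    {P Q : ℝ} (hP : ∀ i j, ‖v i * φ j‖ ≤ P) (hQ : ∀ i j, ‖E i j‖ ≤ Q) {X : ι → k}
    {Ω : ι × ι → k} (h : Alt Ω) {M : ℝ} (hM : ∀ i j l, ‖w3 X Ω (i, (j, l))‖ ≤ M) (i j l : ι) :
    ‖w3 (B *ᵥ X) (sq B *ᵥ Ω) (i, (j, l))‖ ≤ cn ι ^ 3 * ((3 * P * Q ^ 2 + Q ^ 3) * M) := by
  have hP0 : 0 ≤ P := (norm_nonneg _).trans (hP i i)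
  have hQ0 : 0 ≤ Q := (norm_nonneg _).trans (hQ i i)
  have hb : ∀ i, B i = v i • φ + E i := fun i => funext fun j => hB i j
  have dt_add : ∀ r s : ι → k, dt (r + s) X = dt r X + dt s X := fun r s => by
    simp only [dt, Pi.add_apply, add_mul, Finset.sum_add_distrib]
  have dt_smul : ∀ (c : k) (r : ι → k), dt (c • r) X = c * dt r X := fun c r => by
    simp only [dt, Pi.smul_apply, smul_eq_mul, Finset.mul_sum, mul_assoc]
  have e : w3 (B *ᵥ X) (sq B *ᵥ Ω) (i, (j, l)) =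
      tri (w3 X Ω) (v i • φ) (E j) (E l) + tri (w3 X Ω) (E i) (v j • φ) (E l)
        + tri (w3 X Ω) (E i) (E j) (v l • φ) + tri (w3 X Ω) (E i) (E j) (E l) := by
    rw [w3_sq, hb i, hb j, hb l]
    simp only [tri_w3, bl_add_left, bl_add_right, dt_add, dt_smul, bl_smul_left, bl_smul_right,
      bl_self h, bl_anti h (E j) φ, bl_anti h (E i) φ]
    ring
  rw [e]
  have a1 := tri_le (T := w3 X Ω) (r := v i • φ) (s := E j) (t := E l) (fun x => hP i x)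
    (fun x => hQ j x) (fun x => hQ l x) hM hP0 hQ0 hQ0
  have a2 := tri_le (T := w3 X Ω) (r := E i) (s := v j • φ) (t := E l) (fun x => hQ i x)
    (fun x => hP j x) (fun x => hQ l x) hM hQ0 hP0 hQ0
  have a3 := tri_le (T := w3 X Ω) (r := E i) (s := E j) (t := v l • φ) (fun x => hQ i x)
    (fun x => hQ j x) (fun x => hP l x) hM hQ0 hQ0 hP0
  have a4 := tri_le (T := w3 X Ω) (r := E i) (s := E j) (t := E l) (fun x => hQ i x)
    (fun x => hQ j x) (fun x => hQ l x) hM hQ0 hQ0 hQ0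
  refine (norm_add_le _ _).trans ((add_le_add norm_add₃_le le_rfl).trans ?_)
  calc _ ≤ cn ι ^ 3 * (P * Q * Q * M) + cn ι ^ 3 * (Q * P * Q * M) +
        cn ι ^ 3 * (Q * Q * P * M) + cn ι ^ 3 * (Q * Q * Q * M) :=
        add_le_add (add_le_add (add_le_add a1 a2) a3) a4
    _ = _ := by ring

/-! ## near-wall elements of hyperplane type -/

/-- near-wall data, hyperplane type (`A ~ (N, .., N, rN)`), up to the constant `C` -/
structure Hw (A B : Matrix ι ι k) (N r C : ℝ) : Prop where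
  N_pos : 0 < N
  r_pos : 0 < r
  r_le : r ≤ 1
  C_one : 1 ≤ C
  inv : ∀ w, B *ᵥ (A *ᵥ w) = w
  dec : ∃ (v φ : ι → k) (E : Matrix ι ι k), (∀ i j, B i j = v i * φ j + E i j) ∧
    (∀ i j, ‖v i * φ j‖ ≤ C / (r * N)) ∧ ∀ i j, ‖E i j‖ ≤ C / N
  size : ∀ i j, ‖A i j‖ ≤ C * N

theorem hw_of_nw {i0 : ι} {A B : Matrix ι ι k} {η : ι → k} {N r C : ℝ}
    (h : Nw i0 A B η N r C) : Hw A B N r C := by
  obtain ⟨v, φ, E, hB, _, hP, hQ⟩ := h.dec
  exact ⟨h.N_pos, h.r_pos, h.r_le, h.C_one, h.inv, ⟨v, φ, E, hB, hP, hQ⟩, h.size⟩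

theorem hw_of_NWn [DecidableEq ι] {C a b : ℝ} {g h : Matrix ι ι k} {i j : ι}
    (H : NWn C a b g h i j) (hab : 1 ≤ a * b) : Hw hᵀ gᵀ b (1 / (a * b)) C :=
  hw_of_nw (nw_of_NWn H hab)

namespace Hw

variable {A B : Matrix ι ι k} {N r C : ℝ}

theorem C_pos (h : Hw A B N r C) : 0 < C := lt_of_lt_of_le one_pos h.C_one

theorem sq_inv (h : Hw A B N r C) (ω : ι × ι → k) : sq B *ᵥ (sq A *ᵥ ω) = ω := by
  classical
  have hBA : B * A = 1 := by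
    ext i j
    have := congrFun (h.inv (Pi.single j 1)) i
    rw [Matrix.mulVec_mulVec, Matrix.mulVec_single_one] at this
    rw [Matrix.one_apply, ← Pi.single_apply]
    exact this
  rw [Matrix.mulVec_mulVec, ← Matrix.mul_kronecker_mul, hBA, Matrix.one_kronecker_one,
    Matrix.one_mulVec]

/-- upper bound, vectors -/
theorem up (h : Hw A B N r C) (x : ι → k) : ‖A *ᵥ x‖ ≤ cn ι * (C * N * ‖x‖) :=
  mulVec_le (mul_nonneg h.C_pos.le h.N_pos.le) h.size x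

/-- lower bound, vectors -/
theorem low (h : Hw A B N r C) (x : ι → k) : r * N * ‖x‖ ≤ 2 * cn ι * C * ‖A *ᵥ x‖ := by
  obtain ⟨v, φ, E, hB, hP, hQ⟩ := h.dec
  have hN := h.N_pos
  have hr := h.r_pos
  have hC := h.C_pos
  have hb : ∀ i j, ‖B i j‖ ≤ 2 * C / (r * N) := by
    intro i j
    rw [hB]
    refine (norm_add_le _ _).trans ?_
    have h1 : C / N ≤ C / (r * N) := by
      apply div_le_div_of_nonneg_left hC.le (by positivity)
      have := h.r_le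
      nlinarith
    calc _ ≤ C / (r * N) + C / N := add_le_add (hP i j) (hQ i j)
      _ ≤ C / (r * N) + C / (r * N) := by linarith
      _ = _ := by ring
  have key := mulVec_le (M := B) (c := 2 * C / (r * N)) (by positivity) hb (A *ᵥ x)
  rw [h.inv] at key
  calc r * N * ‖x‖ ≤ r * N * (cn ι * (2 * C / (r * N) * ‖A *ᵥ x‖)) :=
        mul_le_mul_of_nonneg_left key (by positivity)
    _ = _ := by field_simp

/-- upper bound, 2-vectors -/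
theorem up_sq (h : Hw A B N r C) (ω : ι × ι → k) :
    ‖sq A *ᵥ ω‖ ≤ cn ι ^ 2 * (C ^ 2 * N ^ 2 * ‖ω‖) := by
  have h1 : ∀ p q : ι × ι, ‖sq A p q‖ ≤ C ^ 2 * N ^ 2 := by
    rintro ⟨i, j⟩ ⟨i', j'⟩
    have e : sq A (i, j) (i', j') = A i i' * A j j' := rfl
    rw [e, norm_mul]
    calc _ ≤ (C * N) * (C * N) := mul_le_mul (h.size _ _) (h.size _ _) (norm_nonneg _)
          (mul_nonneg h.C_pos.le h.N_pos.le)
      _ = _ := by ring
  have := mulVec_le (M := sq A) (c := C ^ 2 * N ^ 2) (by positivity) h1 ω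
  have e : cn (ι × ι) = cn ι ^ 2 := by
    simp only [cn, Fintype.card_prod, Nat.cast_mul]; ring
  rw [e] at this
  exact this

/-- **(F2)** -/
theorem f2 (h : Hw A B N r C) (ω ω' : ι × ι → k) :
    ‖sq A *ᵥ ω' - sq A *ᵥ ω‖ ≤ cn ι ^ 2 * (C ^ 2 * N ^ 2 * ‖ω' - ω‖) := by
  rw [← Matrix.mulVec_sub]
  exact h.up_sq _

/-- lower bound, alternating 2-vectors -/
theorem low_sq (h : Hw A B N r C) {ω : ι × ι → k} (hω : Alt ω) :
    r * N ^ 2 * ‖ω‖ ≤ 3 * cn ι ^ 2 * C ^ 2 * ‖sq A *ᵥ ω‖ := by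
  obtain ⟨v, φ, E, hB, hP, hQ⟩ := h.dec
  have hN := h.N_pos
  have hr := h.r_pos
  have hC := h.C_pos
  have hcn := cn_nonneg (ι := ι)
  have key := fun i j => up2 hB hP hQ (alt_sq A hω) (M := ‖sq A *ᵥ ω‖)
    (fun i j => norm_le_pi_norm _ _) i j
  rw [h.sq_inv] at key
  have e1 : r * N ^ 2 * (2 * (C / (r * N)) * (C / N) + (C / N) ^ 2) = (2 + r) * C ^ 2 := by
    field_simp
  have h2 : ‖ω‖ ≤ cn ι ^ 2 * ((2 * (C / (r * N)) * (C / N) + (C / N) ^ 2) * ‖sq A *ᵥ ω‖) :=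
    (pi_norm_le_iff_of_nonneg (by positivity)).2 fun p => key p.1 p.2
  calc r * N ^ 2 * ‖ω‖ ≤ r * N ^ 2 *
        (cn ι ^ 2 * ((2 * (C / (r * N)) * (C / N) + (C / N) ^ 2) * ‖sq A *ᵥ ω‖)) :=
        mul_le_mul_of_nonneg_left h2 (by positivity)
    _ = cn ι ^ 2 * ((r * N ^ 2 * (2 * (C / (r * N)) * (C / N) + (C / N) ^ 2)) *
          ‖sq A *ᵥ ω‖) := by ring
    _ = cn ι ^ 2 * ((2 + r) * C ^ 2 * ‖sq A *ᵥ ω‖) := by rw [e1]
    _ ≤ cn ι ^ 2 * (3 * C ^ 2 * ‖sq A *ᵥ ω‖) := by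
        have := h.r_le
        gcongr
        linarith
    _ = _ := by ring

/-- **(F1), first half** -/
theorem f1 (h : Hw A B N r C) (x y : ι → k) :
    r * N ^ 2 * ‖wd x y‖ ≤ 6 * cn ι ^ 2 * C ^ 2 * (‖A *ᵥ x‖ * ‖A *ᵥ y‖) := by
  have h1 := h.low_sq (alt_wd x y)
  rw [sq_wd] at h1
  have h2 := wd_le (A *ᵥ x) (A *ᵥ y)
  have hC := h.C_pos
  have hcn := cn_nonneg (ι := ι)
  calc _ ≤ 3 * cn ι ^ 2 * C ^ 2 * ‖wd (A *ᵥ x) (A *ᵥ y)‖ := h1
    _ ≤ 3 * cn ι ^ 2 * C ^ 2 * (2 * (‖A *ᵥ x‖ * ‖A *ᵥ y‖)) :=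
        mul_le_mul_of_nonneg_left h2 (by positivity)
    _ = _ := by ring

omit [Fintype ι] in
theorem w3_apply_le [Fintype ι] (x : ι → k) (ω : ι × ι → k) (i j l : ι) :
    ‖w3 x ω (i, (j, l))‖ ≤ 3 * (‖x‖ * ‖ω‖) := by
  have h : ∀ a p, ‖x a * ω p‖ ≤ ‖x‖ * ‖ω‖ := fun a p => by
    rw [norm_mul]
    exact mul_le_mul (norm_le_pi_norm x a) (norm_le_pi_norm ω p) (norm_nonneg _) (norm_nonneg _)
  simp only [w3]
  refine (norm_add_le _ _).trans ((add_le_add (norm_sub_le _ _) le_rfl).trans ?_)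
  linarith [h i (j, l), h j (i, l), h l (i, j)]

/-- **(F1), second half** -/
theorem f1' (h : Hw A B N r C) (x : ι → k) {ω : ι × ι → k} (hω : Alt ω) :
    r * N ^ 3 * ‖w3 x ω‖ ≤ 12 * cn ι ^ 3 * C ^ 3 * (‖A *ᵥ x‖ * ‖sq A *ᵥ ω‖) := by
  obtain ⟨v, φ, E, hB, hP, hQ⟩ := h.dec
  have hN := h.N_pos
  have hr := h.r_pos
  have hC := h.C_pos
  have hcn := cn_nonneg (ι := ι)
  have key := fun i j l => up3 hB hP hQ (X := A *ᵥ x) (alt_sq A hω)
    (M := 3 * (‖A *ᵥ x‖ * ‖sq A *ᵥ ω‖)) (fun i j l => w3_apply_le _ _ i j l) i j l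
  rw [h.sq_inv, h.inv] at key
  have e1 : r * N ^ 3 * (3 * (C / (r * N)) * (C / N) ^ 2 + (C / N) ^ 3) = (3 + r) * C ^ 3 := by
    field_simp
  have h2 : ‖w3 x ω‖ ≤ cn ι ^ 3 * ((3 * (C / (r * N)) * (C / N) ^ 2 + (C / N) ^ 3) *
      (3 * (‖A *ᵥ x‖ * ‖sq A *ᵥ ω‖))) :=
    (pi_norm_le_iff_of_nonneg (by positivity)).2 fun p => key p.1 p.2.1 p.2.2
  calc r * N ^ 3 * ‖w3 x ω‖ ≤ r * N ^ 3 *
        (cn ι ^ 3 * ((3 * (C / (r * N)) * (C / N) ^ 2 + (C / N) ^ 3) *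
          (3 * (‖A *ᵥ x‖ * ‖sq A *ᵥ ω‖)))) := mul_le_mul_of_nonneg_left h2 (by positivity)
    _ = cn ι ^ 3 * ((r * N ^ 3 * (3 * (C / (r * N)) * (C / N) ^ 2 + (C / N) ^ 3)) *
          (3 * (‖A *ᵥ x‖ * ‖sq A *ᵥ ω‖))) := by ring
    _ = cn ι ^ 3 * ((3 + r) * C ^ 3 * (3 * (‖A *ᵥ x‖ * ‖sq A *ᵥ ω‖))) := by rw [e1]
    _ ≤ cn ι ^ 3 * (4 * C ^ 3 * (3 * (‖A *ᵥ x‖ * ‖sq A *ᵥ ω‖))) := by
        have := h.r_le
        gcongr
        linarith
    _ = _ := by ring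

/-! ### the contracted point `p` -/

/-- `p` is contracted: `‖A p‖ <= c r N ‖p‖` -/
theorem p1 (h : Hw A B N r C) {p : ι → k} {c : ℝ} (hp : ‖A *ᵥ p‖ ≤ c * (r * N) * ‖p‖)
    (y : ι → k) : N * ‖wd p y‖ ≤ 6 * cn ι ^ 2 * C ^ 2 * c * (‖p‖ * ‖A *ᵥ y‖) := by
  have hN := h.N_pos
  have hr := h.r_pos
  have hC := h.C_pos
  have hcn := cn_nonneg (ι := ι)
  have h1 := h.f1 p y
  have h2 : r * N * (N * ‖wd p y‖) ≤
      r * N * (6 * cn ι ^ 2 * C ^ 2 * c * (‖p‖ * ‖A *ᵥ y‖)) := by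
    calc r * N * (N * ‖wd p y‖) = r * N ^ 2 * ‖wd p y‖ := by ring
      _ ≤ 6 * cn ι ^ 2 * C ^ 2 * (‖A *ᵥ p‖ * ‖A *ᵥ y‖) := h1
      _ ≤ 6 * cn ι ^ 2 * C ^ 2 * ((c * (r * N) * ‖p‖) * ‖A *ᵥ y‖) := by gcongr
      _ = _ := by ring
  exact le_of_mul_le_mul_left h2 (by positivity)

theorem p2 (h : Hw A B N r C) {p : ι → k} {c : ℝ} (hp : ‖A *ᵥ p‖ ≤ c * (r * N) * ‖p‖)
    {ω : ι × ι → k} (hω : Alt ω) :
    N ^ 2 * ‖w3 p ω‖ ≤ 12 * cn ι ^ 3 * C ^ 3 * c * (‖p‖ * ‖sq A *ᵥ ω‖) := by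
  have hN := h.N_pos
  have hr := h.r_pos
  have hC := h.C_pos
  have hcn := cn_nonneg (ι := ι)
  have h1 := h.f1' p hω
  have h2 : r * N * (N ^ 2 * ‖w3 p ω‖) ≤
      r * N * (12 * cn ι ^ 3 * C ^ 3 * c * (‖p‖ * ‖sq A *ᵥ ω‖)) := by
    calc r * N * (N ^ 2 * ‖w3 p ω‖) = r * N ^ 3 * ‖w3 p ω‖ := by ring
      _ ≤ 12 * cn ι ^ 3 * C ^ 3 * (‖A *ᵥ p‖ * ‖sq A *ᵥ ω‖) := h1
      _ ≤ 12 * cn ι ^ 3 * C ^ 3 * ((c * (r * N) * ‖p‖) * ‖sq A *ᵥ ω‖) := by gcongr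
      _ = _ := by ring
  exact le_of_mul_le_mul_left h2 (by positivity)

end Hw

/-! ### (F3): the projective distance of two lines with a common point -/

/-- **(F3), the identity** (every characteristic) -/
theorem wd_wd (p z y : ι → k) (i j l m : ι) :
    wd (wd p z) (wd z y) ((i, j), (l, m)) =
      z j * w3 p (wd z y) (i, (l, m)) - z i * w3 p (wd z y) (j, (l, m)) := by
  simp only [wd, w3]; ring

theorem wd_wd_le (p z y : ι → k) :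
    ‖wd (wd p z) (wd z y)‖ ≤ 2 * (‖z‖ * ‖w3 p (wd z y)‖) := by
  refine (pi_norm_le_iff_of_nonneg (by positivity)).2 fun q => ?_
  obtain ⟨⟨i, j⟩, ⟨l, m⟩⟩ := q
  rw [wd_wd]
  have h : ∀ a q, ‖z a * w3 p (wd z y) q‖ ≤ ‖z‖ * ‖w3 p (wd z y)‖ := fun a q => by
    rw [norm_mul]
    exact mul_le_mul (norm_le_pi_norm z a) (norm_le_pi_norm _ q) (norm_nonneg _) (norm_nonneg _)
  refine (norm_sub_le _ _).trans ?_
  linarith [h j (i, (l, m)), h i (j, (l, m))]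

namespace Hw

variable {A B : Matrix ι ι k} {N r C : ℝ}

/-- **(F3)**: `ν' = p ∧ z`, `l' = z ∧ y`; the projective distance of `[p ∧ z]` and `[z ∧ y]` is
at most `C ‖p‖‖z‖/‖p ∧ z‖` times `D(l') = ‖A₂ l'‖/(N² ‖l'‖)`. -/
theorem f3 (h : Hw A B N r C) {p : ι → k} {c : ℝ} (hp : ‖A *ᵥ p‖ ≤ c * (r * N) * ‖p‖)
    (z y : ι → k) :
    N ^ 2 * ‖wd (wd p z) (wd z y)‖ ≤
      24 * cn ι ^ 3 * C ^ 3 * c * (‖p‖ * ‖z‖ * ‖sq A *ᵥ wd z y‖) := by
  have h1 := wd_wd_le p z y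
  have h2 := h.p2 hp (alt_wd z y)
  have hN := h.N_pos
  calc N ^ 2 * ‖wd (wd p z) (wd z y)‖ ≤ N ^ 2 * (2 * (‖z‖ * ‖w3 p (wd z y)‖)) :=
        mul_le_mul_of_nonneg_left h1 (by positivity)
    _ = 2 * ‖z‖ * (N ^ 2 * ‖w3 p (wd z y)‖) := by ring
    _ ≤ 2 * ‖z‖ * (12 * cn ι ^ 3 * C ^ 3 * c * (‖p‖ * ‖sq A *ᵥ wd z y‖)) :=
        mul_le_mul_of_nonneg_left h2 (by positivity)
    _ = _ := by ring

/-- **(F4), capacity**: two elements with the same size and ratio which contract the same point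
differ by a bounded element -/
theorem f4 (h : Hw A B N r C) {A' B' : Matrix ι ι k} (h' : Hw A' B' N r C) {p : ι → k}
    (hp0 : p ≠ 0) {c : ℝ} (hp : ‖A *ᵥ p‖ ≤ c * (r * N) * ‖p‖)
    (hp' : ‖A' *ᵥ p‖ ≤ c * (r * N) * ‖p‖) (u : ι → k) :
    ‖A' *ᵥ u‖ ≤ (2 * cn ι * C * c + 6 * cn ι ^ 3 * C ^ 3 * c) * ‖A *ᵥ u‖ := by
  classical
  have hN := h.N_pos
  have hr := h.r_pos
  have hC := h.C_pos
  have hcn := cn_nonneg (ι := ι)
  have hpn : 0 < ‖p‖ := norm_pos_iff.2 hp0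
  have hc : 0 ≤ c := by
    by_contra hc
    have : c * (r * N) * ‖p‖ < 0 := by
      have : 0 < r * N * ‖p‖ := by positivity
      nlinarith [not_le.1 hc]
    linarith [norm_nonneg (A *ᵥ p)]
  obtain ⟨j, hj⟩ : ∃ j, ‖p j‖ = ‖p‖ := by
    have : Nonempty ι := by
      by_contra hn
      rw [not_nonempty_iff] at hn
      exact hp0 (funext fun i => hn.elim i)
    obtain ⟨j, _, hj⟩ := Finset.exists_max_image Finset.univ (fun i => ‖p i‖) Finset.univ_nonempty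
    exact ⟨j, le_antisymm (norm_le_pi_norm p j)
      ((pi_norm_le_iff_of_nonneg (norm_nonneg _)).2 fun i => hj i (Finset.mem_univ _))⟩
  have hpj : p j ≠ 0 := norm_pos_iff.1 (hj ▸ hpn)
  set α : k := u j / p j with hα
  set u' : ι → k := u - α • p with hu'
  have hu'n : ‖u'‖ * ‖p‖ ≤ ‖wd p u‖ := by
    rw [← le_div_iff₀ hpn]
    refine (pi_norm_le_iff_of_nonneg (by positivity)).2 fun i => ?_
    have e : u' i = wd p u (j, i) / p j := by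
      simp only [hu', hα, wd, Pi.sub_apply, Pi.smul_apply, smul_eq_mul]
      field_simp
    rw [e, norm_div, hj]
    exact div_le_div_of_nonneg_right (norm_le_pi_norm _ _) hpn.le
  have h1 : N * (‖u'‖ * ‖p‖) ≤ 6 * cn ι ^ 2 * C ^ 2 * c * (‖p‖ * ‖A *ᵥ u‖) :=
    (mul_le_mul_of_nonneg_left hu'n hN.le).trans (h.p1 hp u)
  have h2 : N * ‖u'‖ ≤ 6 * cn ι ^ 2 * C ^ 2 * c * ‖A *ᵥ u‖ := by
    have : ‖p‖ * (N * ‖u'‖) ≤ ‖p‖ * (6 * cn ι ^ 2 * C ^ 2 * c * ‖A *ᵥ u‖) := by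
      calc ‖p‖ * (N * ‖u'‖) = N * (‖u'‖ * ‖p‖) := by ring
        _ ≤ _ := h1
        _ = _ := by ring
    exact le_of_mul_le_mul_left this hpn
  have h3 : ‖A' *ᵥ u'‖ ≤ 6 * cn ι ^ 3 * C ^ 3 * c * ‖A *ᵥ u‖ := by
    calc ‖A' *ᵥ u'‖ ≤ cn ι * (C * N * ‖u'‖) := h'.up u'
      _ = cn ι * C * (N * ‖u'‖) := by ring
      _ ≤ cn ι * C * (6 * cn ι ^ 2 * C ^ 2 * c * ‖A *ᵥ u‖) :=
          mul_le_mul_of_nonneg_left h2 (by positivity)
      _ = _ := by ring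
  have h4 : ‖A' *ᵥ (α • p)‖ ≤ 2 * cn ι * C * c * ‖A *ᵥ u‖ := by
    rw [Matrix.mulVec_smul, norm_smul, hα, norm_div, hj]
    have hj' : ‖u j‖ ≤ ‖u‖ := norm_le_pi_norm u j
    have h5 := h.low u
    calc ‖u j‖ / ‖p‖ * ‖A' *ᵥ p‖ ≤ ‖u‖ / ‖p‖ * (c * (r * N) * ‖p‖) := by gcongr
      _ = c * (r * N * ‖u‖) := by field_simp
      _ ≤ c * (2 * cn ι * C * ‖A *ᵥ u‖) := mul_le_mul_of_nonneg_left h5 hc
      _ = _ := by ring
  have e : A' *ᵥ u = A' *ᵥ (α • p) + A' *ᵥ u' := by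
    rw [← Matrix.mulVec_add, hu']; congr 1; abel
  rw [e]
  refine (norm_add_le _ _).trans ?_
  calc _ ≤ 2 * cn ι * C * c * ‖A *ᵥ u‖ + 6 * cn ι ^ 3 * C ^ 3 * c * ‖A *ᵥ u‖ := add_le_add h4 h3
    _ = _ := by ring

end Hw

end Vale.Agent.P092.H835.PlF
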