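import Vale.Agent.P092.H100.Gr2
import Vale.Agent.P092.H835.PlF

/-!
# P092, Team N, [N-K-PL] part 2 (A): the Pluecker embedding `plk : Gr k ι 2 → ℙ k (ι × ι → k)`

continuous, injective, equivariant for `lam2 g = g ⊗ₖ g`; incidence `x ∈ L ↔ x ∧ ω = 0`;
every continuous function on `Gr k ι 2` is the pull back of one on `ℙ k (ι × ι → k)`.
-/

set_option linter.unusedSectionVars false

namespace Vale.Agent.P092.H835.PlGr

open TopologicalSpace Topology Module Set Matrix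
open Vale.Agent.P092.H820 Vale.Agent.P092.H835.PlF
open Vale.Agent.P092.H100.Gr (Gr Fr sp sp_surj sp_eq sp_oq cb cb_mn exists_mn mem_span_iff
  mem_smul smul_mem smF sp_smF fr_val_cont)
open scoped LinearAlgebra.Projectivization Kronecker

variable {k : Type*} [NontriviallyNormedField k] {ι : Type*} [Fintype ι]

/-! ## 2-vectors -/

theorem w3_wd_left (x y : ι → k) : w3 x (wd x y) = 0 := by
  funext p; simp only [w3, wd, Pi.zero_apply]; ring

theorem w3_wd_right (x y : ι → k) : w3 y (wd x y) = 0 := by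
  funext p; simp only [w3, wd, Pi.zero_apply]; ring

theorem w3_smul_right (c : k) (x : ι → k) (ω : ι × ι → k) : w3 x (c • ω) = c • w3 x ω := by
  funext p; simp only [w3, Pi.smul_apply, smul_eq_mul]; ring

theorem w3_smul_left (c : k) (x : ι → k) (ω : ι × ι → k) : w3 (c • x) ω = c • w3 x ω := by
  funext p; simp only [w3, Pi.smul_apply, smul_eq_mul]; ring

theorem w3_add_left (x y : ι → k) (ω : ι × ι → k) : w3 (x + y) ω = w3 x ω + w3 y ω := by
  funext p; simp only [w3, Pi.add_apply]; ring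

/-- a 2-vector killed by `x ≠ 0` is divisible by `x` -/
theorem wd_of_w3 {x : ι → k} (hx : x ≠ 0) {ω : ι × ι → k} (h : w3 x ω = 0) :
    ∃ y, ω = wd x y := by
  obtain ⟨j, hj⟩ : ∃ j, x j ≠ 0 := by
    by_contra hc
    push Not at hc
    exact hx (funext hc)
  refine ⟨fun l => ω (j, l) / x j, funext fun p => ?_⟩
  obtain ⟨i, l⟩ := p
  have e := congrFun h (j, (i, l))
  simp only [w3, Pi.zero_apply] at e
  simp only [wd]
  field_simp
  linear_combination e

/-! ## the Pluecker embedding -/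

/-- the Pluecker vector of a frame -/
def pw (v : Fin 2 → ι → k) : ι × ι → k := wd (v 0) (v 1)

theorem pw_mn (v : Fin 2 → ι → k) (i j : ι) :
    pw v (i, j) = Vale.Agent.P092.H100.Gr.mn ![i, j] v := by
  simp only [pw, wd, Vale.Agent.P092.H100.Gr.mn, Matrix.det_fin_two, Matrix.of_apply,
    Matrix.cons_val_zero, Matrix.cons_val_one]

theorem pw_cb (A : Matrix (Fin 2) (Fin 2) k) (v : Fin 2 → ι → k) : pw (cb A v) = A.det • pw v := by
  funext p
  obtain ⟨i, j⟩ := p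
  rw [Pi.smul_apply, pw_mn, pw_mn, cb_mn, smul_eq_mul]

theorem pw_ne (v : Fr k ι 2) : pw v.1 ≠ 0 := by
  obtain ⟨I, hI⟩ := exists_mn v.2
  intro h0
  apply hI
  have e : I = ![I 0, I 1] := by
    funext a; fin_cases a <;> rfl
  rw [e, ← pw_mn, h0, Pi.zero_apply]

/-- the Pluecker point of a frame -/
def plF (v : Fr k ι 2) : ℙ k (ι × ι → k) := pj k (ι × ι) ⟨pw v.1, pw_ne v⟩

theorem plF_eq {v w : Fr k ι 2} (h : sp v = sp w) : plF v = plF w := by
  obtain ⟨A, hA, e⟩ := (sp_eq v w).1 h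
  symm
  refine (pj_eq _ _).2 ⟨Units.mk0 A.det hA, ?_⟩
  change A.det • pw v.1 = pw w.1
  rw [e, pw_cb]

/-- **the Pluecker map** -/
noncomputable def plk (L : Gr k ι 2) : ℙ k (ι × ι → k) := plF (sp_surj L).choose

theorem plk_sp (v : Fr k ι 2) : plk (sp v) = plF v := plF_eq (sp_surj (sp v)).choose_spec

theorem plk_cont : Continuous (plk : Gr k ι 2 → ℙ k (ι × ι → k)) := by
  rw [← sp_oq.continuous_comp_iff]
  have e : (plk : Gr k ι 2 → ℙ k (ι × ι → k)) ∘ sp = plF := funext plk_sp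
  rw [e]
  refine pj_continuous.comp (Continuous.subtype_mk ?_ _)
  refine continuous_pi fun p => ?_
  have h : ∀ (b : Fin 2) (i : ι), Continuous fun v : Fr k ι 2 => v.1 b i := fun b i =>
    (continuous_apply i).comp ((continuous_apply b).comp fr_val_cont)
  exact ((h 0 _).mul (h 1 _)).sub ((h 0 _).mul (h 1 _))

theorem w3_cons (x : ι → k) (v : Fin 2 → ι → k) (I : Fin 3 → ι) :
    Vale.Agent.P092.H100.Gr.mn I (Fin.cons x v) = w3 x (pw v) (I 0, (I 1, I 2)) := by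
  unfold Vale.Agent.P092.H100.Gr.mn
  rw [Matrix.det_fin_three]
  simp only [Matrix.of_apply, w3, pw, wd]
  have h0 : (Fin.cons x v : Fin 3 → ι → k) 0 = x := rfl
  have h1 : (Fin.cons x v : Fin 3 → ι → k) 1 = v 0 := rfl
  have h2 : (Fin.cons x v : Fin 3 → ι → k) 2 = v 1 := rfl
  rw [h0, h1, h2]
  ring

theorem mem_sp {v : Fr k ι 2} {x : ι → k} : x ∈ (sp v).1 ↔ w3 x (pw v.1) = 0 := by
  refine (mem_span_iff v.2 x).trans ⟨fun h => ?_, fun h I => ?_⟩
  · funext p
    obtain ⟨i, j, l⟩ := p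
    have := h ![i, j, l]
    rw [w3_cons] at this
    exact this
  · rw [w3_cons, h]; rfl

/-- **incidence in Pluecker letters** -/
theorem mem_iff {L : Gr k ι 2} {ω : ι × ι → k} {hω : ω ≠ 0}
    (h : plk L = pj k (ι × ι) ⟨ω, hω⟩) {x : ι → k} : x ∈ L.1 ↔ w3 x ω = 0 := by
  obtain ⟨v, rfl⟩ := sp_surj L
  rw [plk_sp] at h
  obtain ⟨c, hc⟩ := (pj_eq _ _).1 h
  have e : (c : k) • ω = pw v.1 := hc
  rw [mem_sp, ← e, w3_smul_right, smul_eq_zero]
  exact ⟨fun h => h.resolve_left c.ne_zero, Or.inr⟩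

theorem plk_inj : Function.Injective (plk : Gr k ι 2 → ℙ k (ι × ι → k)) := by
  intro L L' h
  obtain ⟨v, rfl⟩ := sp_surj L
  have h1 : plk (sp v) = pj k (ι × ι) ⟨pw v.1, pw_ne v⟩ := plk_sp v
  have h2 : plk L' = pj k (ι × ι) ⟨pw v.1, pw_ne v⟩ := h.symm.trans h1
  refine Subtype.ext (Submodule.ext fun x => ?_)
  rw [mem_iff h1, mem_iff h2]

/-- the Pluecker vectors of the lines -/
theorem rep_line {L : Gr k ι 2} {ω : ι × ι → k} {hω : ω ≠ 0}
    (h : plk L = pj k (ι × ι) ⟨ω, hω⟩) {x : ι → k} (hx : x ≠ 0) (hxL : x ∈ L.1) :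
    ∃ y ∈ L.1, ω = wd x y := by
  obtain ⟨y, hy⟩ := wd_of_w3 hx ((mem_iff h).1 hxL)
  refine ⟨y, (mem_iff h).2 ?_, hy⟩
  rw [hy, w3_wd_right]

theorem rep_alt {L : Gr k ι 2} {ω : ι × ι → k} {hω : ω ≠ 0}
    (h : plk L = pj k (ι × ι) ⟨ω, hω⟩) : Alt ω := by
  obtain ⟨v, rfl⟩ := sp_surj L
  have hx : v.1 0 ≠ 0 := v.2.ne_zero 0
  have hxL : v.1 0 ∈ (sp v).1 := Submodule.subset_span ⟨0, rfl⟩
  obtain ⟨y, _, hy⟩ := rep_line h hx hxL
  rw [hy]
  exact alt_wd _ _

/-- two independent vectors of a line give its Pluecker point -/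
theorem plk_of_mem {L : Gr k ι 2} {x y : ι → k} (hx : x ∈ L.1) (hy : y ∈ L.1)
    (h : wd x y ≠ 0) : plk L = pj k (ι × ι) ⟨wd x y, h⟩ := by
  have hx0 : x ≠ 0 := by
    rintro rfl
    exact h (funext fun p => by simp [wd])
  obtain ⟨ω, hω⟩ := pj_surj (plk L)
  obtain ⟨y', hy', e⟩ := rep_line (hω := ω.2) hω.symm hx0 hx
  rw [← hω]
  refine (pj_eq_iff _ _).2 ?_
  have h3 : w3 y (wd x y') = 0 := by
    have := (mem_iff (hω := ω.2) hω.symm).1 hy
    rwa [e] at this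
  change wd ω.1 (wd x y) = 0
  rw [e]
  funext q
  obtain ⟨⟨i, j⟩, ⟨l, m⟩⟩ := q
  have key := Vale.Agent.P092.H835.PlF.wd_wd y x y' i j l m
  rw [h3] at key
  simp only [wd, Pi.zero_apply, mul_zero, sub_zero] at key ⊢
  linear_combination key

/-! ## equivariance -/

section act

variable [DecidableEq ι]

/-- `Λ²` of an element of `SL` -/
def lam2 : SpecialLinearGroup ι k →* SpecialLinearGroup (ι × ι) k where
  toFun g := ⟨g.1 ⊗ₖ g.1, by rw [Matrix.det_kronecker, g.2]; simp⟩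
  map_one' := Subtype.ext (Matrix.one_kronecker_one)
  map_mul' g h := Subtype.ext (by
    change (g.1 * h.1) ⊗ₖ (g.1 * h.1) = (g.1 ⊗ₖ g.1) * (h.1 ⊗ₖ h.1)
    rw [Matrix.mul_kronecker_mul])

theorem lam2_smul (g : SpecialLinearGroup ι k) (ω : ι × ι → k) : lam2 g • ω = sq g.1 *ᵥ ω := rfl

theorem lam2_wd (g : SpecialLinearGroup ι k) (x y : ι → k) :
    lam2 g • wd x y = wd (g • x) (g • y) := sq_wd g.1 x y

/-- **equivariance** -/
theorem plk_smul (g : SpecialLinearGroup ι k) (L : Gr k ι 2) : plk (g • L) = lam2 g • plk L := by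
  obtain ⟨v, rfl⟩ := sp_surj L
  rw [← sp_smF, plk_sp, plk_sp]
  have e : pw (smF g v).1 = lam2 g • pw v.1 := (lam2_wd g _ _).symm
  have : lam2 g • plF v = pj k (ι × ι) ⟨lam2 g • pw v.1, (smul_ne_zero_iff_ne _).2 (pw_ne v)⟩ := rfl
  rw [this]
  exact congrArg (pj k (ι × ι)) (Subtype.ext e)

end act

/-! ## continuous functions -/

section cont

variable [ProperSpace k]

theorem plk_emb : IsClosedEmbedding (plk : Gr k ι 2 → ℙ k (ι × ι → k)) :=
  plk_cont.isClosedEmbedding plk_inj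

/-- the pull back -/
noncomputable def plH : C(ℙ k (ι × ι → k), ℂ) →⋆ₐ[ℂ] C(Gr k ι 2, ℂ) :=
  ContinuousMap.compStarAlgHom' ℂ ℂ ⟨plk, plk_cont⟩

@[simp] theorem plH_apply (F : C(ℙ k (ι × ι → k), ℂ)) (L : Gr k ι 2) : plH F L = F (plk L) := rfl

/-- **every continuous function on the lines is a pull back** (Tietze) -/
theorem plH_surj : Function.Surjective (plH : C(ℙ k (ι × ι → k), ℂ) →⋆ₐ[ℂ] C(Gr k ι 2, ℂ)) := by
  intro f
  have h1 : ∀ f : C(Gr k ι 2, ℝ), ∃ F : C(ℙ k (ι × ι → k), ℝ), F.comp ⟨plk, plk_cont⟩ = f :=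
    fun f => ContinuousMap.exists_extension plk_emb f
  obtain ⟨F, hF⟩ := h1 ⟨fun L => (f L).re, Complex.continuous_re.comp f.continuous⟩
  obtain ⟨G, hG⟩ := h1 ⟨fun L => (f L).im, Complex.continuous_im.comp f.continuous⟩
  refine ⟨⟨fun x => (F x : ℂ) + (G x : ℂ) * Complex.I, ?_⟩, ContinuousMap.ext fun L => ?_⟩
  · exact (Complex.continuous_ofReal.comp F.continuous).add
      ((Complex.continuous_ofReal.comp G.continuous).mul continuous_const)
  · have e1 := DFunLike.congr_fun hF L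
    have e2 := DFunLike.congr_fun hG L
    simp only [ContinuousMap.comp_apply, ContinuousMap.coe_mk] at e1 e2
    rw [plH_apply]
    simp only [ContinuousMap.coe_mk, e1, e2]
    exact Complex.re_add_im (f L)

end cont

end Vale.Agent.P092.H835.PlGr
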