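import Vale.Agent.P092.H835.NF

/-!
# P092, Team N, [N-K2] (helper589 #6632): the zoom lines

`Nm i ζ = 1 - ζ ⊗ e_i`, `t = 1 - ζ i`; `Dm i η ϖ = Nm i ((1 - ϖ) η)`.
Any normed field, sup norms, explicit constants.
-/

set_option linter.unusedSectionVars false

namespace Vale.Agent.P092.H835.NF

open Finset Matrix Vale.Agent.P092.H820 Vale.Agent.P092.H87.N Vale.Agent.P092.H835.PlF
open scoped Kronecker

section basic

variable {k : Type*} [NormedField k] {ι : Type*} [Fintype ι] [DecidableEq ι]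

/-- `1 - ζ ⊗ e_i` -/
def Nm (i : ι) (ζ : ι → k) : Matrix ι ι k :=
  Matrix.of fun x y => (if x = y then 1 else 0) - ζ x * if y = i then 1 else 0

theorem Nm_mulVec (i : ι) (ζ v : ι → k) : Nm i ζ *ᵥ v = v - v i • ζ := by
  funext x
  simp only [Matrix.mulVec, dotProduct, Nm, Matrix.of_apply, Pi.sub_apply, Pi.smul_apply,
    smul_eq_mul, sub_mul, Finset.sum_sub_distrib, ite_mul, one_mul, zero_mul, mul_ite, mul_one,
    mul_zero, Finset.sum_ite_eq, Finset.sum_ite_eq', Finset.mem_univ, if_true]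
  ring

theorem Nm_norm_le (i : ι) {ζ : ι → k} (x y : ι) : ‖Nm i ζ x y‖ ≤ 1 + ‖ζ‖ := by
  have h1 : ‖(if x = y then (1 : k) else 0)‖ ≤ 1 := by split_ifs <;> simp
  have h2 : ‖ζ x * (if y = i then (1 : k) else 0)‖ ≤ ‖ζ‖ := by
    split_ifs
    · rw [mul_one]; exact norm_le_pi_norm ζ x
    · rw [mul_zero, norm_zero]; exact norm_nonneg _
  exact (norm_sub_le _ _).trans (add_le_add h1 h2)

/-- the 2-vectors under `Nm` -/
theorem sq_Nm (i : ι) (ζ : ι → k) {ω : ι × ι → k} (h : Alt ω) (a b : ι) :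
    (sq (Nm i ζ) *ᵥ ω) (a, b) = ω (a, b) - ζ a * ω (i, b) + ζ b * ω (i, a) := by
  have hrow : ∀ a, (Nm i ζ) a = Pi.single a 1 + (-(ζ a)) • Pi.single i (1 : k) := by
    intro a
    funext y
    simp only [Nm, Matrix.of_apply, Pi.add_apply, Pi.smul_apply, smul_eq_mul, Pi.single_apply,
      @eq_comm ι y a]
    ring
  have hbl : ∀ a b : ι, bl ω (Pi.single a 1) (Pi.single b 1) = ω (a, b) := by
    intro a b
    simp only [bl, Pi.single_apply, ite_mul, one_mul, zero_mul]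
    simp only [Finset.sum_ite_irrel, Finset.sum_const_zero, Finset.sum_ite_eq',
      Finset.mem_univ, if_true]
  rw [sq_apply, hrow a, hrow b, bl_add_left, bl_add_right, bl_add_right, bl_smul_left,
    bl_smul_right, bl_smul_left, bl_smul_right, hbl, hbl, hbl, hbl, h.diag, h.anti a i]
  ring

variable {i : ι} {ζ : ι → k} {ω : ι × ι → k}

/-- **(z1)** -/
theorem z1 (h : Alt ω) (b : ι) : (sq (Nm i ζ) *ᵥ ω) (i, b) = (1 - ζ i) * ω (i, b) := by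
  rw [sq_Nm i ζ h, h.diag]; ring

/-- **(z2)** -/
theorem z2 (h : Alt ω) (a b : ι) :
    ω (a, b) = (sq (Nm i ζ) *ᵥ ω) (a, b) + ζ a * ω (i, b) - ζ b * ω (i, a) := by
  rw [sq_Nm i ζ h]; ring

/-- (z2) as an identity of 2-vectors: `ω = Λ²N ω + ζ ∧ ω_i` -/
theorem z2' (h : Alt ω) : ω = sq (Nm i ζ) *ᵥ ω + wd ζ fun b => ω (i, b) := by
  funext p
  obtain ⟨a, b⟩ := p
  rw [Pi.add_apply, wd]
  exact (z2 h a b).trans (by ring)

/-- **(z3)** -/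
theorem z3 (h : Alt ω) : ‖1 - ζ i‖ * ‖ω‖ ≤ (‖1 - ζ i‖ + 2 * ‖ζ‖) * ‖sq (Nm i ζ) *ᵥ ω‖ := by
  set Ω := sq (Nm i ζ) *ᵥ ω with hΩ
  set t := 1 - ζ i with ht
  have h1 : ‖t • ω‖ ≤ (‖t‖ + 2 * ‖ζ‖) * ‖Ω‖ := by
    refine (pi_norm_le_iff_of_nonneg (by positivity)).2 fun p => ?_
    obtain ⟨a, b⟩ := p
    have e : (t • ω) (a, b) = t * Ω (a, b) + ζ a * Ω (i, b) - ζ b * Ω (i, a) := by
      rw [Pi.smul_apply, smul_eq_mul, z2 (i := i) (ζ := ζ) h a b, ← hΩ, hΩ, z1 h b, z1 h a, ← hΩ,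
        ← ht]
      ring
    have n1 : ‖t * Ω (a, b)‖ ≤ ‖t‖ * ‖Ω‖ := by
      rw [norm_mul]
      exact mul_le_mul_of_nonneg_left (norm_le_pi_norm _ _) (norm_nonneg _)
    have n2 : ∀ x y, ‖ζ x * Ω (i, y)‖ ≤ ‖ζ‖ * ‖Ω‖ := fun x y => by
      rw [norm_mul]
      exact mul_le_mul (norm_le_pi_norm _ _) (norm_le_pi_norm _ _) (norm_nonneg _) (norm_nonneg _)
    rw [e]
    refine (norm_sub_le _ _).trans ((add_le_add (norm_add_le _ _) le_rfl).trans ?_)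
    linarith [n2 a b, n2 b a]
  rwa [norm_smul] at h1

theorem w3_norm_le (x : ι → k) (ω : ι × ι → k) : ‖w3 x ω‖ ≤ 3 * (‖x‖ * ‖ω‖) :=
  (pi_norm_le_iff_of_nonneg (by positivity)).2 fun p => Hw.w3_apply_le x ω p.1 p.2.1 p.2.2

theorem w3_add_left' (x y : ι → k) (ω : ι × ι → k) : w3 (x + y) ω = w3 x ω + w3 y ω := by
  funext p; simp only [w3, Pi.add_apply]; ring

/-- `ζ ∧ ω = ζ ∧ Λ²N ω` -/
theorem w3_zeta (h : Alt ω) : w3 ζ ω = w3 ζ (sq (Nm i ζ) *ᵥ ω) := by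
  funext p
  obtain ⟨a, b, c⟩ := p
  simp only [w3, sq_Nm i ζ h]
  ring

/-- **(z4)** -/
theorem z4 (h : Alt ω) {e : ι → k} {D : ℝ} (he : ‖e‖ ≤ D * ‖1 - ζ i‖) (hD : 0 ≤ D) :
    ‖w3 (ζ + e) ω‖ ≤ (3 * ‖ζ‖ + 3 * D * (‖1 - ζ i‖ + 2 * ‖ζ‖)) * ‖sq (Nm i ζ) *ᵥ ω‖ := by
  rw [w3_add_left', w3_zeta (i := i) h]
  have h1 := w3_norm_le ζ (sq (Nm i ζ) *ᵥ ω)
  have h2 := w3_norm_le e ω
  have h3 := z3 (i := i) (ζ := ζ) h
  refine (norm_add_le _ _).trans ?_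
  calc _ ≤ 3 * (‖ζ‖ * ‖sq (Nm i ζ) *ᵥ ω‖) + 3 * (‖e‖ * ‖ω‖) := add_le_add h1 h2
    _ ≤ 3 * (‖ζ‖ * ‖sq (Nm i ζ) *ᵥ ω‖) + 3 * (D * ‖1 - ζ i‖ * ‖ω‖) := by
        gcongr
    _ = 3 * (‖ζ‖ * ‖sq (Nm i ζ) *ᵥ ω‖) + 3 * D * (‖1 - ζ i‖ * ‖ω‖) := by ring
    _ ≤ 3 * (‖ζ‖ * ‖sq (Nm i ζ) *ᵥ ω‖) +
          3 * D * ((‖1 - ζ i‖ + 2 * ‖ζ‖) * ‖sq (Nm i ζ) *ᵥ ω‖) := by
        gcongr
    _ = _ := by ring

/-- **(z5)** -/
theorem z5 {A A' : Matrix ι ι k} (hA : A' * A = 1) {C : ℝ} (hC : ∀ a b, ‖A' a b‖ ≤ C)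
    (hC0 : 0 ≤ C) (ω : ι × ι → k) : ‖ω‖ ≤ cn ι ^ 2 * C ^ 2 * ‖sq A *ᵥ ω‖ := by
  have e : sq A' *ᵥ (sq A *ᵥ ω) = ω := by
    rw [Matrix.mulVec_mulVec, ← Matrix.mul_kronecker_mul, hA, Matrix.one_kronecker_one,
      Matrix.one_mulVec]
  have h1 : ∀ p q : ι × ι, ‖sq A' p q‖ ≤ C ^ 2 := by
    rintro ⟨i, j⟩ ⟨i', j'⟩
    have e : sq A' (i, j) (i', j') = A' i i' * A' j j' := rfl
    rw [e, norm_mul, pow_two]
    exact mul_le_mul (hC _ _) (hC _ _) (norm_nonneg _) hC0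
  have := mulVec_le (M := sq A') (c := C ^ 2) (by positivity) h1 (sq A *ᵥ ω)
  rw [e] at this
  have e2 : cn (ι × ι) = cn ι ^ 2 := by
    simp only [cn, Fintype.card_prod, Nat.cast_mul]; ring
  rw [e2] at this
  linarith

/-- upper bound for `Λ²A` -/
theorem sq_le {A : Matrix ι ι k} {C : ℝ} (hC : ∀ a b, ‖A a b‖ ≤ C) (hC0 : 0 ≤ C)
    (ω : ι × ι → k) : ‖sq A *ᵥ ω‖ ≤ cn ι ^ 2 * C ^ 2 * ‖ω‖ := by
  have h1 : ∀ p q : ι × ι, ‖sq A p q‖ ≤ C ^ 2 := by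
    rintro ⟨i, j⟩ ⟨i', j'⟩
    have e : sq A (i, j) (i', j') = A i i' * A j j' := rfl
    rw [e, norm_mul, pow_two]
    exact mul_le_mul (hC _ _) (hC _ _) (norm_nonneg _) hC0
  have := mulVec_le (M := sq A) (c := C ^ 2) (by positivity) h1 ω
  have e2 : cn (ι × ι) = cn ι ^ 2 := by
    simp only [cn, Fintype.card_prod, Nat.cast_mul]; ring
  rw [e2] at this
  linarith

theorem sq_mul (A B : Matrix ι ι k) : PlF.sq (A * B) = PlF.sq A * PlF.sq B :=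
  Matrix.mul_kronecker_mul A B A B

theorem sq_smul (c : k) (A : Matrix ι ι k) (ω : ι × ι → k) :
    sq (c • A) *ᵥ ω = c ^ 2 • (sq A *ᵥ ω) := by
  funext p
  obtain ⟨a, b⟩ := p
  have e : ∀ a, (c • A) a = c • A a := fun a => rfl
  rw [Pi.smul_apply, sq_apply, sq_apply, e, e, bl_smul_left, bl_smul_right, smul_eq_mul]
  ring

/-! ### the zoom -/

/-- `h⁻¹ v = v_i g + ρ (v - v_i g)` -/
def Hz (i : ι) (g : ι → k) (ρ : k) : Matrix ι ι k := Matrix.of fun x y =>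
  ρ * (if x = y then 1 else 0) + (1 - ρ) * (g x * if y = i then 1 else 0)

theorem Hz_mulVec (i : ι) (g : ι → k) (ρ : k) (v : ι → k) :
    Hz i g ρ *ᵥ v = v i • g + ρ • (v - v i • g) := by
  funext x
  simp only [Matrix.mulVec, dotProduct, Hz, Matrix.of_apply, Pi.add_apply, Pi.sub_apply,
    Pi.smul_apply, smul_eq_mul, add_mul, Finset.sum_add_distrib, mul_ite, mul_one, mul_zero,
    ite_mul, zero_mul, Finset.sum_ite_eq, Finset.sum_ite_eq', Finset.mem_univ, if_true]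
  ring

theorem Hz_mul {i : ι} {g : ι → k} (hg : g i = 1) (ρ ρ' : k) :
    Hz i g ρ * Hz i g ρ' = Hz i g (ρ * ρ') := by
  refine (Matrix.toLin' (R := k)).injective (LinearMap.ext fun v => ?_)
  simp only [Matrix.toLin'_apply, ← Matrix.mulVec_mulVec, Hz_mulVec]
  funext x
  simp only [Pi.add_apply, Pi.sub_apply, Pi.smul_apply, smul_eq_mul, hg]
  ring

theorem Hz_one (i : ι) (g : ι → k) : Hz i g 1 = 1 := by
  ext x y
  simp only [Hz, Matrix.of_apply, sub_self, zero_mul, add_zero, one_mul, Matrix.one_apply]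

end basic

section nnf

variable {k : Type*} [NontriviallyNormedField k] {ι : Type*} [Fintype ι] [DecidableEq ι]

theorem Dm_eq_Nm (i : ι) (η : ι → k) (ϖ : k) : Dm i η ϖ = Nm i ((1 - ϖ) • η) := by
  ext x y
  simp only [Dm, Nm, Matrix.of_apply, Pi.smul_apply, smul_eq_mul, mul_assoc]

/-- the zoomed parameter -/
noncomputable def zt (g η : ι → k) (ρ ϖ : k) : ι → k := g + ρ⁻¹ • (η - g) - (ϖ / ρ) • η

theorem zt_i {i : ι} {g η : ι → k} (hg : g i = 1) (hη : η i = 1) (ρ ϖ : k) :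
    1 - zt g η ρ ϖ i = ϖ / ρ := by
  simp only [zt, Pi.add_apply, Pi.sub_apply, Pi.smul_apply, smul_eq_mul, hg, hη]
  ring

theorem zt_norm_le {g η : ι → k} {C ρ' : ℝ} {ρ ϖ : k} (hg : ‖g‖ ≤ C) (hη : ‖η‖ ≤ C)
    (hρ : ‖η - g‖ ≤ ρ' * ‖ρ‖) (hρ0 : ρ ≠ 0) (hϖ : ‖ϖ‖ ≤ C * ‖ρ‖) :
    ‖zt g η ρ ϖ‖ ≤ C + ρ' + C * C := by
  have hρn : 0 < ‖ρ‖ := norm_pos_iff.2 hρ0
  have hC0 : 0 ≤ C := (norm_nonneg _).trans hg
  have h1 : ‖ρ⁻¹ • (η - g)‖ ≤ ρ' := by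
    rw [norm_smul, norm_inv, inv_mul_le_iff₀ hρn, mul_comm]; exact hρ
  have h2 : ‖(ϖ / ρ) • η‖ ≤ C * C := by
    rw [norm_smul, norm_div]
    refine mul_le_mul ?_ hη (norm_nonneg _) hC0
    rw [div_le_iff₀ hρn]; exact hϖ
  unfold zt
  refine (norm_sub_le _ _).trans (add_le_add ((norm_add_le _ _).trans (add_le_add hg h1)) h2)

/-- **the zoom identity** `D h⁻¹ = ρ (1 - ζ ⊗ e_i)` -/
theorem zoom {i : ι} {g η : ι → k} (hg : g i = 1) {ρ : k} (hρ : ρ ≠ 0) (ϖ : k) :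
    Dm i η ϖ * Hz i g ρ = ρ • Nm i (zt g η ρ ϖ) := by
  refine (Matrix.toLin' (R := k)).injective (LinearMap.ext fun v => ?_)
  simp only [Matrix.toLin'_apply, ← Matrix.mulVec_mulVec, Matrix.smul_mulVec, Hz_mulVec,
    Dm_mulVec, Nm_mulVec]
  funext x
  simp only [Pi.add_apply, Pi.sub_apply, Pi.smul_apply, smul_eq_mul, hg, zt]
  field_simp
  ring

end nnf

end Vale.Agent.P092.H835.NF
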