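import Vale.Agent.P092.H835.PlF

/-!
# P092, Team N, [N-K2] (helper589 #6352 (5)): the normal form `K = c • (A * D η ϖ)`

`K = hᵀ` a near-wall element of hyperplane type (`g = (K⁻¹)ᵀ`, `NWn C a b g h i j`,
`K ~ (b, .., b, 1/a)`), `η = yy g i j` the contracted point, `η j = 1`,
`D η ϖ v = v - (1 - ϖ) v_j η`; `A`, `A⁻¹` bounded, `|ϖ| ~ 1/(a b)`, `|c| ~ b`.
-/

set_option linter.unusedSectionVars false

namespace Vale.Agent.P092.H835.NF

open Finset Matrix Vale.Agent.P092.H820 Vale.Agent.P092.H87.N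

variable {k : Type*} [NontriviallyNormedField k] {ι : Type*} [Fintype ι] [DecidableEq ι]

/-- `D v = v - (1 - ϖ) v_j η` -/
def Dm (j : ι) (η : ι → k) (ϖ : k) : Matrix ι ι k :=
  Matrix.of fun x y => (if x = y then 1 else 0) - (1 - ϖ) * (η x * if y = j then 1 else 0)

theorem Dm_mulVec (j : ι) (η : ι → k) (ϖ : k) (v : ι → k) :
    Dm j η ϖ *ᵥ v = v - ((1 - ϖ) * v j) • η := by
  funext x
  simp only [Matrix.mulVec, dotProduct, Dm, Matrix.of_apply, Pi.sub_apply, Pi.smul_apply,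
    smul_eq_mul, sub_mul, Finset.sum_sub_distrib, ite_mul, one_mul, zero_mul, mul_ite, mul_one,
    mul_zero, Finset.sum_ite_eq, Finset.sum_ite_eq', Finset.mem_univ, if_true]
  ring

theorem Dm_one (j : ι) (η : ι → k) : Dm j η 1 = 1 := by
  ext x y
  simp only [Dm, Matrix.of_apply, sub_self, zero_mul, sub_zero, Matrix.one_apply]

theorem Dm_mul (j : ι) {η : ι → k} (hη : η j = 1) (ϖ ϖ' : k) :
    Dm j η ϖ * Dm j η ϖ' = Dm j η (ϖ * ϖ') := by
  refine (Matrix.toLin' (R := k)).injective (LinearMap.ext fun v => ?_)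
  simp only [Matrix.toLin'_apply, ← Matrix.mulVec_mulVec, Dm_mulVec]
  funext x
  simp only [Pi.sub_apply, Pi.smul_apply, smul_eq_mul, hη]
  ring

theorem exists_scale {τ : k} (hτ : 1 < ‖τ‖) {b : ℝ} (hb : 0 < b) :
    ∃ c : k, c ≠ 0 ∧ b ≤ ‖c‖ ∧ ‖c‖ ≤ ‖τ‖ * b := by
  have hτ0 : 0 < ‖τ‖ := one_pos.trans hτ
  obtain ⟨d, hd, h1, h2, _⟩ := rescale_to_shell hτ (show 0 < ‖τ‖ * b by positivity)
    (one_ne_zero : (1 : k) ≠ 0)
  refine ⟨d, hd, ?_, ?_⟩
  · rw [smul_eq_mul, mul_one, mul_div_cancel_left₀ _ hτ0.ne'] at h2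
    exact h2
  · rw [smul_eq_mul, mul_one] at h1
    exact h1.le

/-- **the normal form** -/
theorem nf {τ : k} (hτ : 1 < ‖τ‖) {C a b : ℝ} {g h : Matrix ι ι k} {i j : ι}
    (H : NWn C a b g h i j) (hab : 1 ≤ a * b) :
    ∃ (c ϖ : k) (A A' : Matrix ι ι k), c ≠ 0 ∧ ϖ ≠ 0 ∧ b ≤ ‖c‖ ∧ ‖c‖ ≤ ‖τ‖ * b ∧
      hᵀ = c • (A * Dm j (yy g i j) ϖ) ∧ A' * A = 1 ∧ A * A' = 1 ∧
      (∀ x y, ‖A x y‖ ≤ 2 * C + 1) ∧ (∀ x y, ‖A' x y‖ ≤ ‖τ‖ * C + 1) ∧
      ‖ϖ‖ ≤ C * (1 / (a * b)) ∧ 1 / (a * b) ≤ C * ‖τ‖ * ‖ϖ‖ := by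
  obtain ⟨c, hc, hcb, hcb'⟩ := exists_scale hτ H.b_pos
  have ha := H.a_pos
  have hb := H.b_pos
  have hC := H.C_pos
  have hτ0 : 0 < ‖τ‖ := one_pos.trans hτ
  have hgn := H.n_pos
  have hg := H.ne
  have hcn : 0 < ‖c‖ := norm_pos_iff.2 hc
  set η := yy g i j with hη
  set ϖ : k := (g i j * c)⁻¹ with hϖ
  -- the contracted point
  have hK : ∀ x, ∑ y, h y x * η y = (if x = i then 1 else 0) / g i j := by
    intro x
    have e := congrFun (congrFun H.gh i) x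
    rw [Matrix.mul_apply, Matrix.one_apply] at e
    have e2 : (if i = x then (1 : k) else 0) = if x = i then 1 else 0 := by
      by_cases hx : x = i
      · rw [if_pos hx, if_pos hx.symm]
      · rw [if_neg hx, if_neg (Ne.symm hx)]
    rw [← e2, ← e, Finset.sum_div]
    exact Finset.sum_congr rfl fun y _ => by rw [hη, yy]; ring
  let A : Matrix ι ι k := Matrix.of fun x y => c⁻¹ * h y x +
    (1 - ϖ) * ((if x = i then 1 else 0) * if y = j then 1 else 0)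
  let A' : Matrix ι ι k := Matrix.of fun y x => c * EE g i j x y + η y * uu g i j x
  have hA : ∀ v : ι → k, A *ᵥ v = c⁻¹ • (hᵀ *ᵥ v) + ((1 - ϖ) * v j) • Pi.single i 1 := by
    intro v
    funext x
    simp only [A, Matrix.mulVec, dotProduct, Matrix.of_apply, Pi.add_apply, Pi.smul_apply,
      smul_eq_mul, Matrix.transpose_apply, add_mul, Finset.sum_add_distrib, Finset.mul_sum,
      Pi.single_apply]
    congr 1
    · exact Finset.sum_congr rfl fun y _ => by ring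
    · by_cases hx : x = i
      · simp [hx]
      · simp [hx]
  have hA' : ∀ w : ι → k, A' *ᵥ w = c • ((EE g i j)ᵀ *ᵥ w) + (w ⬝ᵥ uu g i j) • η := by
    intro w
    funext y
    simp only [A', Matrix.mulVec, dotProduct, Matrix.of_apply, Pi.add_apply, Pi.smul_apply,
      smul_eq_mul, Matrix.transpose_apply, add_mul, Finset.sum_add_distrib, Finset.mul_sum,
      Finset.sum_mul]
    congr 1
    · exact Finset.sum_congr rfl fun x _ => by ring
    · exact Finset.sum_congr rfl fun x _ => by ring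
  have hηj : η j = 1 := H.yy_j
  have hKη : hᵀ *ᵥ η = (g i j)⁻¹ • Pi.single i 1 := by
    funext x
    have := hK x
    simp only [Matrix.mulVec, dotProduct, Matrix.transpose_apply, Pi.smul_apply, smul_eq_mul,
      Pi.single_apply]
    rw [this]
    ring
  have hϖ' : c⁻¹ * (g i j)⁻¹ = ϖ := by rw [hϖ, mul_inv]; ring
  have hAη : A *ᵥ η = Pi.single i 1 := by
    rw [hA, hKη, hηj, smul_smul, hϖ', ← add_smul]
    ring_nf
    rw [one_smul]
  have hgt : ∀ w : ι → k, hᵀ *ᵥ (gᵀ *ᵥ w) = w := fun w => by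
    rw [Matrix.mulVec_mulVec, ← Matrix.transpose_mul, H.gh, Matrix.transpose_one,
      Matrix.one_mulVec]
  have hEE : ∀ w : ι → k, (EE g i j)ᵀ *ᵥ w = gᵀ *ᵥ w - (g i j * (w ⬝ᵥ uu g i j)) • η := by
    intro w
    have := H.vecMul_eq w
    rw [← Matrix.mulVec_transpose, ← Matrix.mulVec_transpose] at this
    rw [this]; abel
  have hEEj : ∀ w : ι → k, ((EE g i j)ᵀ *ᵥ w) j = 0 := by
    intro w
    simp only [Matrix.mulVec, dotProduct, Matrix.transpose_apply]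
    exact Finset.sum_eq_zero fun x _ => by rw [H.EE_col, zero_mul]
  have hAA' : A * A' = 1 := by
    refine (Matrix.toLin' (R := k)).injective (LinearMap.ext fun w => ?_)
    simp only [Matrix.toLin'_apply, ← Matrix.mulVec_mulVec, Matrix.one_mulVec]
    rw [hA' w, Matrix.mulVec_add, Matrix.mulVec_smul, Matrix.mulVec_smul, hAη, hA,
      hEEj, mul_zero, zero_smul, add_zero, smul_smul, mul_inv_cancel₀ hc, one_smul, hEE w,
      Matrix.mulVec_sub, hgt, Matrix.mulVec_smul, hKη, smul_smul]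
    have : g i j * (w ⬝ᵥ uu g i j) * (g i j)⁻¹ = w ⬝ᵥ uu g i j := by field_simp
    rw [this]; abel
  have hKD : hᵀ = c • (A * Dm j η ϖ) := by
    refine (Matrix.toLin' (R := k)).injective (LinearMap.ext fun v => ?_)
    simp only [Matrix.toLin'_apply, Matrix.smul_mulVec, ← Matrix.mulVec_mulVec, Dm_mulVec]
    rw [Matrix.mulVec_sub, Matrix.mulVec_smul, hAη, hA, add_sub_cancel_right, smul_smul,
      mul_inv_cancel₀ hc, one_smul]
  have hϖn : ‖ϖ‖ = 1 / (‖g i j‖ * ‖c‖) := by rw [hϖ, norm_inv, norm_mul, one_div]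
  have hϖle : ‖ϖ‖ ≤ C * (1 / (a * b)) := by
    rw [hϖn, mul_one_div, div_le_div_iff₀ (by positivity) (by positivity), one_mul]
    calc a * b ≤ (C * ‖g i j‖) * ‖c‖ := mul_le_mul H.lo hcb hb.le (by positivity)
      _ = _ := by ring
  refine ⟨c, ϖ, A, A', hc, inv_ne_zero (mul_ne_zero hg hc), hcb, hcb', hKD,
    mul_eq_one_comm.1 hAA', hAA', fun x y => ?_, fun y x => ?_, hϖle, ?_⟩
  · -- entries of A: outside (i, j) the entry is `c⁻¹ K`, at (i, j) use `A e_j`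
    have h1 : ‖c⁻¹ * h y x‖ ≤ C := by
      rw [norm_mul, norm_inv, inv_mul_le_iff₀ hcn]
      calc ‖h y x‖ ≤ C * b := H.inv y x
        _ ≤ ‖c‖ * C := by rw [mul_comm]; exact mul_le_mul_of_nonneg_right hcb hC.le
    have h2 : ‖(1 - ϖ) * ((if x = i then 1 else 0) * if y = j then (1 : k) else 0)‖ ≤ 1 + C := by
      have h3 : ‖1 - ϖ‖ ≤ 1 + C := by
        refine (norm_sub_le _ _).trans ?_
        rw [norm_one]
        have : 1 / (a * b) ≤ 1 := by rw [div_le_one (by positivity)]; exact hab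
        nlinarith
      rw [norm_mul, norm_mul]
      have h4 : ‖(if x = i then (1 : k) else 0)‖ ≤ 1 := by split_ifs <;> simp
      have h5 : ‖(if y = j then (1 : k) else 0)‖ ≤ 1 := by split_ifs <;> simp
      calc _ ≤ (1 + C) * (1 * 1) := mul_le_mul h3 (mul_le_mul h4 h5 (norm_nonneg _) zero_le_one)
            (by positivity) (by positivity)
        _ = _ := by ring
    refine (norm_add_le _ _).trans ?_
    linarith
  · have h1 : ‖c * EE g i j x y‖ ≤ ‖τ‖ * C := by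
      rw [norm_mul]
      calc ‖c‖ * ‖EE g i j x y‖ ≤ (‖τ‖ * b) * (C / b) :=
            mul_le_mul hcb' (H.ee x y) (norm_nonneg _) (by positivity)
        _ = _ := by field_simp
    have h2 : ‖η y * uu g i j x‖ ≤ 1 := by
      rw [norm_mul]
      calc _ ≤ (1 : ℝ) * 1 := mul_le_mul ((norm_le_pi_norm _ y).trans H.yy_norm.le)
            ((norm_le_pi_norm _ x).trans H.uu_norm.le) (norm_nonneg _) zero_le_one
        _ = _ := one_mul _
    exact (norm_add_le _ _).trans (add_le_add h1 h2)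
  · rw [hϖn, mul_one_div, div_le_div_iff₀ (by positivity) (by positivity), one_mul]
    calc ‖g i j‖ * ‖c‖ ≤ (C * a) * (‖τ‖ * b) :=
          mul_le_mul H.hi hcb' hcn.le (by positivity)
      _ = _ := by ring

/-- points close to the contracted point, in the chart `x_j = 1` -/
theorem near_eta {j : ι} {η x : ι → k} (hη : η j = 1) (hη1 : ‖η‖ ≤ 1) {ρ : ℝ} (hρ : ρ ≤ 1 / 2)
    (hx : x ≠ 0) (h : ‖wd x η‖ ≤ ρ * ‖x‖) :
    ‖x‖ ≤ 2 * ‖x j‖ ∧ x j ≠ 0 ∧ ‖(x j)⁻¹ • x - η‖ ≤ 2 * ρ := by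
  have hxn : 0 < ‖x‖ := norm_pos_iff.2 hx
  have hρ0 : 0 ≤ ρ := by
    by_contra hc
    have : ρ * ‖x‖ < 0 := mul_neg_of_neg_of_pos (not_le.1 hc) hxn
    linarith [norm_nonneg (wd x η)]
  have h1 : ‖x - x j • η‖ ≤ ρ * ‖x‖ := by
    refine (pi_norm_le_iff_of_nonneg (by positivity)).2 fun y => ?_
    have e : (x - x j • η) y = wd x η (y, j) := by
      simp only [wd, Pi.sub_apply, Pi.smul_apply, smul_eq_mul, hη, mul_one]
    rw [e]
    exact (norm_le_pi_norm _ _).trans h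
  have h2 : ‖x‖ ≤ ρ * ‖x‖ + ‖x j‖ := by
    calc ‖x‖ = ‖(x - x j • η) + x j • η‖ := by rw [sub_add_cancel]
      _ ≤ ‖x - x j • η‖ + ‖x j • η‖ := norm_add_le _ _
      _ ≤ ρ * ‖x‖ + ‖x j‖ * 1 := by
          rw [norm_smul]
          exact add_le_add h1 (mul_le_mul_of_nonneg_left hη1 (norm_nonneg _))
      _ = _ := by ring
  have h3 : ‖x‖ ≤ 2 * ‖x j‖ := by nlinarith
  have hxj : 0 < ‖x j‖ := by linarith
  have hxj0 : x j ≠ 0 := norm_pos_iff.1 hxj
  refine ⟨h3, hxj0, ?_⟩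
  have e : (x j)⁻¹ • x - η = (x j)⁻¹ • (x - x j • η) := by
    rw [smul_sub, smul_smul, inv_mul_cancel₀ hxj0, one_smul]
  rw [e, norm_smul, norm_inv, inv_mul_le_iff₀ hxj]
  calc ‖x - x j • η‖ ≤ ρ * ‖x‖ := h1
    _ ≤ ρ * (2 * ‖x j‖) := mul_le_mul_of_nonneg_left h3 hρ0
    _ = _ := by ring

end Vale.Agent.P092.H835.NF
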