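import Vale.Agent.P092.H87.NGeo3
import Vale.Agent.P092.H835.NF

/-!
# P092, Team N, [N-K]: normal form and support of the near-wall elements of hyperplane type

For `g` in `SL(ι)` such that `taun g = (g⁻¹)ᵀ` is near-wall (size in the shell `s`) with attracting
point (= attracting hyperplane of `g`) close to `A`: `g = c • (B * D η ϖ)` and the points `x` with
`g x` in `Y` (`Y` closed, on no hyperplane of `closure A`) are at distance `C r` from `η`.
-/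

set_option linter.unusedSectionVars false

namespace Vale.Agent.P092.H835.NF

open Finset Matrix Topology Vale.Agent.P092.H820 Vale.Agent.P092.H87.N
open scoped LinearAlgebra.Projectivization

variable {k : Type*} [NontriviallyNormedField k] {ι : Type*} [Fintype ι] [DecidableEq ι]

/-- the ratio of the shell `s` -/
noncomputable def rr (m : ℕ) (s : ℝ) : ℝ := 1 / (Real.exp s * Real.exp (s / m))

theorem rr_pos (m : ℕ) (s : ℝ) : 0 < rr m s := by unfold rr; positivity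

theorem rr_eq (m : ℕ) (s : ℝ) : rr m s = Real.exp (-(s + s / m)) := by
  unfold rr
  rw [← Real.exp_add, Real.exp_neg, one_div]

theorem rr_le_one (m : ℕ) {s : ℝ} (hs : 0 ≤ s) : rr m s ≤ 1 := by
  rw [rr_eq]
  apply Real.exp_le_one_iff.2
  have : 0 ≤ s / m := by positivity
  linarith

theorem taun_inv_tr (g : SpecialLinearGroup ι k) : ((taun g)⁻¹).1ᵀ = g.1 := by
  have h1 : (taun g).1 * (g.1)ᵀ = 1 := by
    change ((g⁻¹).1)ᵀ * (g.1)ᵀ = 1
    rw [← Matrix.transpose_mul, coe_mul_inv, Matrix.transpose_one]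
  have h2 : ((taun g)⁻¹).1 * (taun g).1 = 1 := coe_inv_mul _
  have h3 : ((taun g)⁻¹).1 = (g.1)ᵀ := by
    calc ((taun g)⁻¹).1 = ((taun g)⁻¹).1 * ((taun g).1 * (g.1)ᵀ) := by rw [h1, Matrix.mul_one]
      _ = (g.1)ᵀ := by rw [← Matrix.mul_assoc, h2, Matrix.one_mul]
  rw [h3, Matrix.transpose_transpose]

/-- a closed set of points off the hyperplanes of `closure A` is off the hyperplanes of a closed
neighbourhood of `closure A` -/
theorem exists_nhd [ProperSpace k] {A Y : Set (ℙ k (ι → k))} (hY : IsClosed Y)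
    (hAY : ∀ x ∈ closure A, ∀ p ∈ Y, ¬ Projectivization.orthogonal p x) :
    ∃ V : Set (ℙ k (ι → k)), IsOpen V ∧ closure A ⊆ V ∧
      ∀ x ∈ closure V, ∀ p ∈ Y, ¬ Projectivization.orthogonal p x := by
  have hcl : IsClosed {q : ℙ k (ι → k) × ℙ k (ι → k) | Projectivization.orthogonal q.1 q.2} := by
    rw [← (pj_oq.prodMap pj_oq).isQuotientMap.isClosed_preimage]
    have e : (Prod.map (pj k ι) (pj k ι)) ⁻¹' {q | Projectivization.orthogonal q.1 q.2} =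
        {q | q.1.1 ⬝ᵥ q.2.1 = 0} := by
      ext q
      exact Projectivization.orthogonal_mk q.1.2 q.2.2
    rw [e]
    exact isClosed_eq ((continuous_subtype_val.comp continuous_fst).dotProduct
      (continuous_subtype_val.comp continuous_snd)) continuous_const
  have hZ : IsClosed (Prod.snd '' ({q : ℙ k (ι → k) × ℙ k (ι → k) |
      Projectivization.orthogonal q.1 q.2} ∩ (Y ×ˢ Set.univ))) :=
    ((hcl.inter (hY.prod isClosed_univ)).isCompact.image continuous_snd).isClosed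
  obtain ⟨V, hV, hAV, hVZ⟩ := normal_exists_closure_subset (isClosed_closure (s := A))
    hZ.isOpen_compl (fun x hx hx' => by
      obtain ⟨q, ⟨hq1, hq2⟩, rfl⟩ := hx'
      exact hAY _ hx _ hq2.1 hq1)
  exact ⟨V, hV, hAV, fun x hx p hp ho => hVZ hx ⟨(p, x), ⟨ho, hp, Set.mem_univ _⟩, rfl⟩⟩

theorem mulVec_ne_sl (g : SpecialLinearGroup ι k) {x : ι → k} (hx : x ≠ 0) : g.1 *ᵥ x ≠ 0 :=
  fun h0 => by
    apply hx
    have : (g⁻¹).1 *ᵥ (g.1 *ᵥ x) = x := by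
      rw [Matrix.mulVec_mulVec, coe_inv_mul, Matrix.one_mulVec]
    rw [← this, h0, Matrix.mulVec_zero]

/-- **the geometry of one near-wall element of hyperplane type, all constants uniform** -/
theorem nfsl [ProperSpace k] {m : ℕ} (hm : Fintype.card ι = m + 1) (hm0 : 0 < m) (R : ℝ)
    {A Y : Set (ℙ k (ι → k))} (hY : IsClosed Y)
    (hAY : ∀ x ∈ closure A, ∀ p ∈ Y, ¬ Projectivization.orthogonal p x) :
    ∃ T₀ : ℝ, 0 < T₀ ∧ ∃ C : ℝ, 1 ≤ C ∧ ∀ T ≥ T₀, ∀ s : ℝ, 0 ≤ s →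
      ∀ g : SpecialLinearGroup ι k, Real.exp s ≤ nmn (taun g) →
      nmn (taun g) ≤ Real.exp (s + 1) → nmn (taun g)⁻¹ ^ m ≤ R * nmn (taun g) →
      Attn T A (taun g) → ∀ i j, (∀ a b, ‖(taun g).1 a b‖ ≤ ‖(taun g).1 i j‖) →
      (∃ (c ϖ : k) (B B' : Matrix ι ι k), c ≠ 0 ∧ ϖ ≠ 0 ∧ Real.exp (s / m) ≤ ‖c‖ ∧
        ‖c‖ ≤ C * Real.exp (s / m) ∧
        g.1 = c • (B * Dm j (yy (taun g).1 i j) ϖ) ∧ B' * B = 1 ∧ B * B' = 1 ∧
        (∀ x y, ‖B x y‖ ≤ C) ∧ (∀ x y, ‖B' x y‖ ≤ C) ∧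
        ‖ϖ‖ ≤ C * rr m s ∧ rr m s ≤ C * ‖ϖ‖) ∧
      yy (taun g).1 i j j = 1 ∧ ‖yy (taun g).1 i j‖ = 1 ∧
      ∀ (x : ι → k) (hx : x ≠ 0), cl (g.1 *ᵥ x) (mulVec_ne_sl g hx) ∈ Y →
        ‖wd x (yy (taun g).1 i j)‖ ≤ C * rr m s * ‖x‖ ∧
        (C * rr m s ≤ 1 / 2 → ‖x‖ ≤ 2 * ‖x j‖ ∧ x j ≠ 0 ∧
          ‖(x j)⁻¹ • x - yy (taun g).1 i j‖ ≤ 2 * (C * rr m s)) := by
  obtain ⟨V, hV, hAV, hVY⟩ := exists_nhd hY hAY
  obtain ⟨T₀, hT₀, hatt⟩ := att_xp_n (U := closure A) isClosed_closure hV hAV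
  obtain ⟨D, hD, hdisc⟩ := geo_disc (U := closure V) (A := Y) isClosed_closure hY
    (fun u l hu hl h1 h2 h3 => hVY _ h1 _ h2 (by
      refine (Projectivization.orthogonal_mk hl hu).2 ?_
      rwa [dotProduct_comm])) (KR m R)
  obtain ⟨τ, hτ⟩ := NormedField.exists_one_lt_norm k
  have hK := one_le_KR m R
  set K := KR m R with hKdef
  set C : ℝ := (2 * K + 1) + (‖τ‖ * K + 1) + ‖τ‖ + D with hC
  have hτ0 : 0 < ‖τ‖ := one_pos.trans hτ
  have hC1 : K ≤ C := by rw [hC]; nlinarith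
  refine ⟨T₀, hT₀, C, hK.trans hC1, fun T hT s hs g h1 h2 h3 hA i j hp => ?_⟩
  have H := nwn_sh hm hm0 h1 h2 h3 hp
  rw [← hKdef] at H
  have hab : 1 ≤ Real.exp s * Real.exp (s / m) := by
    rw [← Real.exp_add]
    apply Real.one_le_exp
    have : 0 ≤ s / m := by positivity
    linarith
  have hA' : Attn T (closure A) (taun g) := by
    obtain ⟨v, φ, hv, hvA, hφ⟩ := hA
    exact ⟨v, φ, hv, subset_closure hvA, hφ⟩
  have hxV := hatt T hT K _ _ (taun g) i j H hA'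
  obtain ⟨c, ϖ, B, B', hc, hϖ, hcb, hcb', hg, hBB, hBB', hB, hB', hϖ1, hϖ2⟩ := nf hτ H hab
  rw [taun_inv_tr] at hg
  refine ⟨⟨c, ϖ, B, B', hc, hϖ, hcb, ?_, hg, hBB, hBB', fun x y => (hB x y).trans ?_,
    fun x y => (hB' x y).trans ?_, ?_, ?_⟩, H.yy_j, H.yy_norm, fun x hx hxY => ?_⟩
  · refine hcb'.trans (mul_le_mul_of_nonneg_right ?_ (Real.exp_pos _).le)
    rw [hC]; nlinarith
  · rw [hC]; nlinarith
  · rw [hC]; nlinarith
  · exact hϖ1.trans (mul_le_mul_of_nonneg_right hC1 (rr_pos m s).le)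
  · refine hϖ2.trans (mul_le_mul_of_nonneg_right ?_ (norm_nonneg _))
    rw [hC]; nlinarith
  · have e : x ᵥ* ((taun g)⁻¹).1 = g.1 *ᵥ x := by
      rw [← Matrix.mulVec_transpose, taun_inv_tr]
    have hd := hdisc _ _ (taun g).1 ((taun g)⁻¹).1 i j H (subset_closure hxV) x hx (by
      have e2 : cl (x ᵥ* ((taun g)⁻¹).1) (vecMul_ne' H hx) = cl (g.1 *ᵥ x) (mulVec_ne_sl g hx) :=
        congrArg (pj k ι) (Subtype.ext e)
      rw [e2]; exact hxY)
    have hd' : ‖wd x (yy (taun g).1 i j)‖ ≤ C * rr m s * ‖x‖ := by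
      refine hd.trans (mul_le_mul_of_nonneg_right ?_ (norm_nonneg _))
      rw [rr, mul_one_div]
      refine div_le_div_of_nonneg_right ?_ (by positivity)
      rw [hC]; nlinarith
    exact ⟨hd', fun hr => near_eta H.yy_j H.yy_norm.le hr hx hd'⟩

end Vale.Agent.P092.H835.NF
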