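import Vale.Agent.P092.SN.Blocks
import Vale.Agent.P092.H455.Hm3

/-!
P092 (helper835), Team N, [N-CLS]: the pointwise stabiliser of a proper subspace is a Moore set of
every admissible source group: `E = ι(SL_n(k)) · S'`.
-/

set_option linter.all false

open scoped Matrix LinearAlgebra.Projectivization
open Matrix Filter Topology

namespace Vale.Agent.P092.H835

open Vale.Agent.P092.H933 (LocK)
open Vale.Agent.P092.RC (Moore GG PG YY ct)
open Vale.Agent.P092.H455 (moore_tv tv tv_mulVec exists_phi span_ne_top moore_factor)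
open Vale.Agent.P092.SN (Adm)

section one

variable {k : Type} [NontriviallyNormedField k] {N : ℕ}

/-- a linear map which is the identity on `L` fixes the points of `L` -/
theorem fix_pt {L : Submodule k (Fin (N + 1) → k)} {g : GG k N}
    (hg : ∀ x ∈ L, g.1 *ᵥ x = x) {x : YY k N} (hx : x.submodule ≤ L) : g • x = x := by
  induction x using Projectivization.ind with
  | h v hv =>
    rw [Projectivization.submodule_mk] at hx
    have hvL : v ∈ L := hx (Submodule.mem_span_singleton_self v)
    rw [Projectivization.smul_mk]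
    congr 1
    exact hg v hvL

/-- every element of `PGL_n(k)` is, on the points of a proper subspace, in `SL_n(k)` -/
theorem exists_inv {L : Submodule k (Fin (N + 1) → k)} (hL : L ≠ ⊤) (p : PG k (N + 1)) :
    ∃ h : GG k N, ∀ x : YY k N, x.submodule ≤ L → h • (p • x) = x := by
  induction p using QuotientGroup.induction_on with
  | H M =>
    let e : (Fin (N + 1) → k) ≃ₗ[k] (Fin (N + 1) → k) :=
      { (Matrix.toLin' (M⁻¹ : GL (Fin (N + 1)) k).1) with
        invFun := fun x => (M : GL (Fin (N + 1)) k).1 *ᵥ x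
        left_inv := fun x => by
          change M.1 *ᵥ ((M⁻¹ : GL (Fin (N + 1)) k).1 *ᵥ x) = x
          rw [Matrix.mulVec_mulVec, ← Units.val_mul, mul_inv_cancel, Units.val_one,
            Matrix.one_mulVec]
        right_inv := fun x => by
          change (M⁻¹ : GL (Fin (N + 1)) k).1 *ᵥ (M.1 *ᵥ x) = x
          rw [Matrix.mulVec_mulVec, ← Units.val_mul, inv_mul_cancel, Units.val_one,
            Matrix.one_mulVec] }
    obtain ⟨h, hh⟩ := H100.Gr.exists_sl hL e
    refine ⟨h, fun x hx => ?_⟩
    induction x using Projectivization.ind with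
    | h v hv =>
      rw [Projectivization.submodule_mk] at hx
      have hvL : v ∈ L := hx (Submodule.mem_span_singleton_self v)
      have e1 : (QuotientGroup.mk M : PG k (N + 1)) • Projectivization.mk k v hv
          = Projectivization.mk k (M • v) ((smul_ne_zero_iff_ne M).2 hv) := rfl
      have e2 : e (M.1 *ᵥ v) = v := by
        change (M⁻¹ : GL (Fin (N + 1)) k).1 *ᵥ (M.1 *ᵥ v) = v
        rw [Matrix.mulVec_mulVec, ← Units.val_mul, inv_mul_cancel, Units.val_one,
          Matrix.one_mulVec]
      have e3 := hh (M.1 *ᵥ v) (by rw [e2]; exact hvL)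
      rw [e2] at e3
      rw [e1, Projectivization.smul_mk]
      congr 1

end one

section adm

variable {k : Type} [NontriviallyNormedField k] [ProperSpace k] {N : ℕ} {E : Type} [Group E]
  [TopologicalSpace E] {ι : GG k N →* E} {a a' : E →* PG k (N + 1)}

/-- **zero-one law** for the pointwise stabiliser of a proper subspace -/
theorem moore_fix (hk : LocK k) (hA : Adm ι a a') {L : Submodule k (Fin (N + 1) → k)}
    (hL : L ≠ ⊤) : Moore {e : E | ∀ x : YY k N, x.submodule ≤ L → a e • x = x} := by
  intro 𝓗 _ _ _ u h1 h2 ξ hξ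
  have hN := hA.hN
  obtain ⟨φ, hφ, hφL⟩ := exists_phi L hL
  obtain ⟨v, hv, hv'⟩ := exists_phi _ (span_ne_top (k := k) (by omega : 2 ≤ N + 1) φ)
  have hv0 : φ ⬝ᵥ v = 0 := by
    rw [dotProduct_comm]
    exact hv' φ (Submodule.mem_span_singleton_self φ)
  have A : ∀ g : GG k N, u (ι g) ξ = ξ := by
    refine moore_factor (moore_tv hk (by omega : 2 ≤ N + 1) hv hφ hv0) ι hA.cι u h1 h2 ?_
    rintro _ ⟨t, rfl⟩
    refine hξ _ fun x hx => ?_
    rw [hA.comp]
    refine fix_pt (L := L) (fun y hy => ?_) hx
    rw [tv_mulVec, hφL y hy, mul_zero, zero_smul, add_zero]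
  intro e
  obtain ⟨h, hh⟩ := exists_inv hL (a e)
  have h3 : u (ι h * e) ξ = ξ := hξ _ fun x hx => by
    rw [map_mul, mul_smul, hA.comp]
    exact hh x hx
  rw [map_mul] at h3
  have h4 : u (ι h⁻¹) (u (ι h) (u e ξ)) = u (ι h⁻¹) ξ := congrArg _ h3
  rw [A] at h4
  have h5 : u (ι h⁻¹) (u (ι h) (u e ξ)) = u e ξ := by
    have : u (ι h⁻¹) (u (ι h) (u e ξ)) = (u (ι h⁻¹) * u (ι h)) (u e ξ) := rfl
    rw [this, ← map_mul, ← map_mul, inv_mul_cancel, map_one, map_one]
    rfl
  rw [← h5, h4]

theorem span_pair_ne_top (hN : 2 ≤ N) (x y : Fin (N + 1) → k) :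
    Submodule.span k {x, y} ≠ ⊤ := by
  classical
  intro h
  have h1 := finrank_span_finset_le_card (R := k) ({x, y} : Finset (Fin (N + 1) → k))
  rw [Set.finrank, Finset.coe_pair, h, finrank_top, Module.finrank_fin_fun] at h1
  have h2 : ({x, y} : Finset (Fin (N + 1) → k)).card ≤ 2 := Finset.card_le_two
  omega

/-- the literal of helper375 (#6756) -/
theorem moore_line (hk : LocK k) (hA : Adm ι a a') {i j : Fin (N + 1)} (hij : i ≠ j) :
    Moore {e : E | ∀ x : YY k N, x.submodule ≤ Submodule.span k
      {(Pi.single i 1 : Fin (N + 1) → k), Pi.single j 1} → a e • x = x} :=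
  moore_fix hk hA (span_pair_ne_top hA.hN _ _)

end adm

end Vale.Agent.P092.H835
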