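import Mathlib
import Vale.Agent.P092.H464.Pv

/-!
P092, TEAM D, [KC-DEC] (helper835): dyadic decomposition of an operator `W` which is a function of a
finitely additive projection valued measure, the function being Lipschitz in two coordinates.
No geometry.
-/

namespace Vale.Agent.P092.H835.Dec

open Finset
open Vale.Agent.P092.H464 (Pv)

section Pvs

variable {K : Type*} [NormedAddCommGroup K] [InnerProductSpace ℂ K] [CompleteSpace K]
variable {X : Type*} [MeasurableSpace X]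

variable {P : Set X → (K →L[ℂ] K)}

lemma pv_union (hP : Pv P) {A B : Set X} (hA : MeasurableSet A) (hB : MeasurableSet B)
    (h : A ∩ B = ∅) : P (A ∪ B) = P A + P B := by
  have e : A ∪ B = (Aᶜ ∩ Bᶜ)ᶜ := by rw [Set.compl_inter, compl_compl, compl_compl]
  rw [e, hP.compl _ (hA.compl.inter hB.compl), hP.inter _ _ hA.compl hB.compl, hP.compl A hA,
    hP.compl B hB]
  have := hP.disj hA hB (Set.disjoint_iff_inter_eq_empty.2 h)
  calc 1 - (1 - P A) * (1 - P B) = P A + P B - P A * P B := by noncomm_ring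
    _ = P A + P B := by rw [this, sub_zero]

/-- `T` is small on `A` -/
def Good (P : Set X → (K →L[ℂ] K)) (T : K →L[ℂ] K) (e : ℝ) (A : Set X) : Prop :=
  ∀ ξ, ‖T (P A ξ)‖ ≤ e * ‖P A ξ‖

lemma Good.mono (hP : Pv P) {T : K →L[ℂ] K} {e : ℝ} {A B : Set X} (hA : MeasurableSet A)
    (hB : MeasurableSet B) (h : Good P T e A) (hBA : B ⊆ A) : Good P T e B := by
  intro ξ
  have e1 : P B ξ = P A (P B ξ) := by
    have : P A * P B = P B := by rw [← hP.inter A B hA hB, Set.inter_eq_right.2 hBA]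
    exact (DFunLike.congr_fun this ξ).symm
  rw [e1]
  exact h (P B ξ)

lemma Good.union_disj (hP : Pv P) {T : K →L[ℂ] K} (hT : ∀ A, MeasurableSet A → T * P A = P A * T)
    {e : ℝ} (he : 0 ≤ e) {A B : Set X} (hA : MeasurableSet A) (hB : MeasurableSet B)
    (h1 : Good P T e A) (h2 : Good P T e B) (h : A ∩ B = ∅) : Good P T e (A ∪ B) := by
  intro ξ
  rw [pv_union hP hA hB h]
  have horth : ∀ η ζ : K, inner ℂ (P A η) (P B ζ) = 0 := by
    intro η ζ
    have h3 : inner ℂ (P A η) (P B ζ) = inner ℂ η (P A (P B ζ)) := by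
      have := hP.sa A hA
      rw [ContinuousLinearMap.star_eq_adjoint] at this
      conv_rhs => rw [← this]
      rw [ContinuousLinearMap.adjoint_inner_right]
    rw [h3]
    have : P A (P B ζ) = 0 := DFunLike.congr_fun (hP.disj hA hB (Set.disjoint_iff_inter_eq_empty.2 h)) ζ
    rw [this, inner_zero_right]
  have hTA : ∀ (C : Set X), MeasurableSet C → T (P C ξ) = P C (T ξ) := fun C hC =>
    DFunLike.congr_fun (hT C hC) ξ
  have n1 : ‖T (P A ξ + P B ξ)‖ ^ 2 = ‖T (P A ξ)‖ ^ 2 + ‖T (P B ξ)‖ ^ 2 := by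
    rw [map_add, hTA A hA, hTA B hB, sq, sq, sq,
      norm_add_sq_eq_norm_sq_add_norm_sq_of_inner_eq_zero _ _ (horth _ _)]
  have n2 : ‖P A ξ + P B ξ‖ ^ 2 = ‖P A ξ‖ ^ 2 + ‖P B ξ‖ ^ 2 := by
    rw [sq, sq, sq, norm_add_sq_eq_norm_sq_add_norm_sq_of_inner_eq_zero _ _ (horth _ _)]
  have h3 : ‖T (P A ξ)‖ ^ 2 ≤ (e * ‖P A ξ‖) ^ 2 := pow_le_pow_left₀ (norm_nonneg _) (h1 ξ) 2
  have h4 : ‖T (P B ξ)‖ ^ 2 ≤ (e * ‖P B ξ‖) ^ 2 := pow_le_pow_left₀ (norm_nonneg _) (h2 ξ) 2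
  show ‖T (P A ξ + P B ξ)‖ ≤ e * ‖P A ξ + P B ξ‖
  refine abs_le_of_sq_le_sq' ?_ (by positivity) |>.2
  rw [n1, mul_pow, n2]
  nlinarith

lemma Good.union (hP : Pv P) {T : K →L[ℂ] K} (hT : ∀ A, MeasurableSet A → T * P A = P A * T)
    {e : ℝ} (he : 0 ≤ e) {A B : Set X} (hA : MeasurableSet A) (hB : MeasurableSet B)
    (h1 : Good P T e A) (h2 : Good P T e B) : Good P T e (A ∪ B) := by
  have := Good.union_disj hP hT he hA (hB.diff hA) h1
    (h2.mono hP hB (hB.diff hA) Set.sdiff_subset) (Set.inter_sdiff_self A B)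
  rwa [Set.union_sdiff_self] at this

lemma Good.empty (hP : Pv P) {T : K →L[ℂ] K} {e : ℝ} : Good P T e ∅ := by
  intro ξ
  simp [hP.empty]

lemma Good.biUnion (hP : Pv P) {T : K →L[ℂ] K} (hT : ∀ A, MeasurableSet A → T * P A = P A * T)
    {e : ℝ} (he : 0 ≤ e) {ι : Type*} (s : Finset ι) (A : ι → Set X)
    (hA : ∀ i ∈ s, MeasurableSet (A i)) (h : ∀ i ∈ s, Good P T e (A i)) :
    Good P T e (⋃ i ∈ s, A i) ∧ MeasurableSet (⋃ i ∈ s, A i) := by
  classical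
  induction s using Finset.induction_on with
  | empty => simpa using Good.empty hP
  | insert a s ha ih =>
    obtain ⟨h1, h2⟩ := ih (fun i hi => hA i (mem_insert_of_mem hi))
      (fun i hi => h i (mem_insert_of_mem hi))
    rw [Finset.set_biUnion_insert]
    exact ⟨Good.union hP hT he (hA a (mem_insert_self a s)) h2 (h a (mem_insert_self a s)) h1,
      (hA a (mem_insert_self a s)).union h2⟩

lemma Good.of_norm (hP : Pv P) {T : K →L[ℂ] K} {e : ℝ} {A : Set X} (hA : MeasurableSet A)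
    (h : ‖T * P A‖ ≤ e) : Good P T e A := by
  intro ξ
  have e1 : P A ξ = P A (P A ξ) := by
    have : P A * P A = P A := by rw [← hP.inter A A hA hA, Set.inter_self]
    exact (DFunLike.congr_fun this ξ).symm
  calc ‖T (P A ξ)‖ = ‖(T * P A) (P A ξ)‖ := by
        conv_lhs => rw [e1]
        rfl
    _ ≤ ‖T * P A‖ * ‖P A ξ‖ := (T * P A).le_opNorm _
    _ ≤ e * ‖P A ξ‖ := by gcongr

lemma Good.norm_le (hP : Pv P) {T : K →L[ℂ] K} {e : ℝ} (he : 0 ≤ e)
    (h : Good P T e Set.univ) : ‖T‖ ≤ e := by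
  refine T.opNorm_le_bound he (fun ξ => ?_)
  have := h ξ
  rwa [hP.univ] at this

end Pvs

section Cells

variable {X : Type*}

/-- index of the dyadic cell of level `n` -/
noncomputable def idx (u v : X → ℝ) (n : ℕ) (x : X) : ℤ × ℤ := (⌊(2 : ℝ) ^ n * u x⌋, ⌊(2 : ℝ) ^ n * v x⌋)

/-- dyadic cell of level `n` -/
def cell (D : Set X) (u v : X → ℝ) (n : ℕ) (i : ℤ × ℤ) : Set X := {x | x ∈ D ∧ idx u v n x = i}

/-- corner value -/
noncomputable def cv (g : ℝ → ℝ → ℂ) (n : ℕ) (i : ℤ × ℤ) : ℂ :=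
  g ((i.1 : ℝ) / 2 ^ n) ((i.2 : ℝ) / 2 ^ n)

/-- coefficient: difference of corner values -/
noncomputable def cf (g : ℝ → ℝ → ℂ) : ℕ → ℤ × ℤ → ℂ
  | 0, i => cv g 0 i
  | n + 1, i => cv g (n + 1) i - cv g n (i.1 / 2, i.2 / 2)

open Classical in
/-- window of level `n` -/
noncomputable def win (α β Cs V : ℝ) (n : ℕ) : Finset (ℤ × ℤ) :=
  ((Finset.Icc (-⌈(2 : ℝ) ^ n * (|Cs| + 2 + |α| + |V| + 1)⌉) ⌈(2 : ℝ) ^ n * (|Cs| + 2 + |α| + |V| + 1)⌉) ×ˢ
    (Finset.Icc (-⌈(2 : ℝ) ^ n * |V| + 1⌉) ⌈(2 : ℝ) ^ n * |V| + 1⌉)).filter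
    (fun i => |(i.2 : ℝ)| ≤ 2 ^ n * V + 1 ∧ |(i.1 : ℝ) / 2 ^ n + α + β * ((i.2 : ℝ) / 2 ^ n)| ≤ Cs + 2)

lemma mem_win {α β Cs V : ℝ} {n : ℕ} {i : ℤ × ℤ} (hβ : |β| ≤ 1) :
    i ∈ win α β Cs V n ↔
      |(i.2 : ℝ)| ≤ 2 ^ n * V + 1 ∧ |(i.1 : ℝ) / 2 ^ n + α + β * ((i.2 : ℝ) / 2 ^ n)| ≤ Cs + 2 := by
  have h2 : (0 : ℝ) < 2 ^ n := by positivity
  have h2' : (1 : ℝ) ≤ 2 ^ n := one_le_pow₀ (by norm_num)
  unfold win
  rw [Finset.mem_filter, and_iff_right_of_imp]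
  rintro ⟨h1, h3⟩
  have hV := le_abs_self V
  have hC := le_abs_self Cs
  have b2 : |(i.2 : ℝ) / 2 ^ n| ≤ |V| + 1 := by
    rw [abs_div, abs_of_pos h2, div_le_iff₀ h2]
    nlinarith
  have b1 : |(i.1 : ℝ)| ≤ (2 : ℝ) ^ n * (|Cs| + 2 + |α| + |V| + 1) := by
    have h4 : |(i.1 : ℝ) / 2 ^ n| ≤ |Cs| + 2 + |α| + |V| + 1 := by
      have e : (i.1 : ℝ) / 2 ^ n = ((i.1 : ℝ) / 2 ^ n + α + β * ((i.2 : ℝ) / 2 ^ n)) - α
        - β * ((i.2 : ℝ) / 2 ^ n) := by ring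
      have h5 : |β * ((i.2 : ℝ) / 2 ^ n)| ≤ |V| + 1 := by
        rw [abs_mul]
        calc |β| * |(i.2 : ℝ) / 2 ^ n| ≤ 1 * (|V| + 1) := by gcongr
          _ = _ := one_mul _
      rw [e]
      refine (abs_sub _ _).trans ?_
      have := abs_sub ((i.1 : ℝ) / 2 ^ n + α + β * ((i.2 : ℝ) / 2 ^ n)) α
      linarith
    rw [abs_div, abs_of_pos h2, div_le_iff₀ h2] at h4
    linarith
  have b2' : |(i.2 : ℝ)| ≤ (2 : ℝ) ^ n * |V| + 1 := by nlinarith
  rw [Finset.mem_product, Finset.mem_Icc, Finset.mem_Icc]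
  rw [abs_le] at b1 b2'
  refine ⟨⟨?_, ?_⟩, ?_, ?_⟩
  · rw [neg_le]
    have : ((-i.1 : ℤ) : ℝ) ≤ (2 : ℝ) ^ n * (|Cs| + 2 + |α| + |V| + 1) := by push_cast; linarith
    exact_mod_cast this.trans (Int.le_ceil _)
  · exact_mod_cast b1.2.trans (Int.le_ceil _)
  · rw [neg_le]
    have : ((-i.2 : ℤ) : ℝ) ≤ (2 : ℝ) ^ n * |V| + 1 := by push_cast; linarith
    exact_mod_cast this.trans (Int.le_ceil _)
  · exact_mod_cast b2'.2.trans (Int.le_ceil _)

/-- number of cells of a window over a unit interval -/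
theorem count {α β Cs V : ℝ} (hβ : |β| ≤ 1) (hCs : 0 ≤ Cs) (n : ℕ) (c : ℤ) :
    (((win α β Cs V n).filter (fun i => i.2 / 2 ^ n = c)).card : ℝ) ≤ (2 * Cs + 5) * 4 ^ n := by
  classical
  have h2 : (0 : ℝ) < 2 ^ n := by positivity
  have h2' : (1 : ℝ) ≤ 2 ^ n := one_le_pow₀ (by norm_num)
  set s := (win α β Cs V n).filter (fun i => i.2 / 2 ^ n = c) with hs
  have him : (s.image Prod.snd) ⊆ Finset.Ico (2 ^ n * c) (2 ^ n * c + 2 ^ n) := by
    intro b hb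
    rw [Finset.mem_image] at hb
    obtain ⟨i, hi, rfl⟩ := hb
    rw [hs, Finset.mem_filter] at hi
    have h3 := hi.2
    have hp : (0 : ℤ) < 2 ^ n := by positivity
    rw [Finset.mem_Ico]
    have h4 := Int.emod_add_mul_ediv i.2 (2 ^ n)
    have h5 := Int.emod_nonneg i.2 hp.ne'
    have h6 := Int.emod_lt_of_pos i.2 hp
    rw [h3] at h4
    constructor <;> linarith
  have hfib : ∀ b ∈ s.image Prod.snd, ((s.filter (fun i => i.2 = b)).card : ℕ)
      ≤ ⌊(2 : ℝ) ^ n * (2 * Cs + 4) + 1⌋₊ := by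
    intro b _
    set lo : ℝ := 2 ^ n * (-(Cs + 2) - α - β * ((b : ℝ) / 2 ^ n)) with hlo
    have hsub : (s.filter (fun i => i.2 = b)).image Prod.fst ⊆
        Finset.Icc ⌈lo⌉ ⌊lo + 2 ^ n * (2 * Cs + 4)⌋ := by
      intro a ha
      rw [Finset.mem_image] at ha
      obtain ⟨i, hi, rfl⟩ := ha
      rw [Finset.mem_filter, hs, Finset.mem_filter, mem_win hβ] at hi
      obtain ⟨⟨⟨_, h3⟩, _⟩, h4⟩ := hi
      subst h4
      rw [abs_le] at h3
      have e : (i.1 : ℝ) = 2 ^ n * ((i.1 : ℝ) / 2 ^ n) := by field_simp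
      rw [Finset.mem_Icc, Int.ceil_le, Int.le_floor]
      constructor
      · rw [e, hlo]
        exact mul_le_mul_of_nonneg_left (by linarith) h2.le
      · rw [e, hlo, ← mul_add]
        exact mul_le_mul_of_nonneg_left (by linarith) h2.le
    have hinj : Set.InjOn Prod.fst ((s.filter (fun i => i.2 = b) : Finset (ℤ × ℤ)) : Set (ℤ × ℤ)) := by
      intro i hi j hj hij
      rw [Finset.mem_coe, Finset.mem_filter] at hi hj
      exact Prod.ext hij (hi.2.trans hj.2.symm)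
    have h3 := Finset.card_le_card hsub
    rw [Finset.card_image_of_injOn hinj, Int.card_Icc] at h3
    refine h3.trans ?_
    refine Nat.le_floor ?_
    have h4 : ((⌊lo + 2 ^ n * (2 * Cs + 4)⌋ + 1 - ⌈lo⌉ : ℤ) : ℝ) ≤ 2 ^ n * (2 * Cs + 4) + 1 := by
      push_cast
      have := Int.floor_le (lo + 2 ^ n * (2 * Cs + 4))
      have := Int.le_ceil lo
      linarith
    rcases le_or_gt 0 (⌊lo + 2 ^ n * (2 * Cs + 4)⌋ + 1 - ⌈lo⌉) with h5 | h5
    · have : (((⌊lo + 2 ^ n * (2 * Cs + 4)⌋ + 1 - ⌈lo⌉).toNat : ℤ) : ℝ)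
          = ((⌊lo + 2 ^ n * (2 * Cs + 4)⌋ + 1 - ⌈lo⌉ : ℤ) : ℝ) := by rw [Int.toNat_of_nonneg h5]
      rw [← this] at h4
      exact_mod_cast h4
    · rw [Int.toNat_of_nonpos h5.le]
      push_cast
      positivity
  have h3 := Finset.card_le_mul_card_image (f := Prod.snd) s _ hfib
  have h4 := Finset.card_le_card him
  rw [Int.card_Ico] at h4
  have h5 : (2 ^ n * c + 2 ^ n - 2 ^ n * c : ℤ).toNat = 2 ^ n := by
    have : (2 ^ n * c + 2 ^ n - 2 ^ n * c : ℤ) = ((2 ^ n : ℕ) : ℤ) := by push_cast; ring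
    rw [this, Int.toNat_natCast]
  rw [h5] at h4
  have h6 : (s.card : ℝ) ≤ (⌊(2 : ℝ) ^ n * (2 * Cs + 4) + 1⌋₊ : ℝ) * ((2 ^ n : ℕ) : ℝ) := by
    have := h3.trans (Nat.mul_le_mul_left _ h4)
    exact_mod_cast this
  have h7 : (⌊(2 : ℝ) ^ n * (2 * Cs + 4) + 1⌋₊ : ℝ) ≤ (2 : ℝ) ^ n * (2 * Cs + 4) + 1 :=
    Nat.floor_le (by positivity)
  have h8 : (4 : ℝ) ^ n = 2 ^ n * 2 ^ n := by rw [← mul_pow]; norm_num
  calc (s.card : ℝ) ≤ (⌊(2 : ℝ) ^ n * (2 * Cs + 4) + 1⌋₊ : ℝ) * ((2 ^ n : ℕ) : ℝ) := h6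
    _ ≤ ((2 : ℝ) ^ n * (2 * Cs + 4) + 1) * 2 ^ n := by push_cast; gcongr
    _ ≤ ((2 : ℝ) ^ n * (2 * Cs + 5)) * 2 ^ n := by gcongr; nlinarith
    _ = (2 * Cs + 5) * 4 ^ n := by rw [h8]; ring

lemma corner_near (n : ℕ) (a : ℝ) : |(⌊(2 : ℝ) ^ n * a⌋ : ℝ) / 2 ^ n - a| ≤ 1 / 2 ^ n := by
  have h2 : (0 : ℝ) < 2 ^ n := by positivity
  have h1 := Int.floor_le ((2 : ℝ) ^ n * a)
  have h3 := Int.lt_floor_add_one ((2 : ℝ) ^ n * a)
  have e : (⌊(2 : ℝ) ^ n * a⌋ : ℝ) / 2 ^ n - a = (⌊(2 : ℝ) ^ n * a⌋ - 2 ^ n * a) / 2 ^ n := by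
    field_simp
  rw [e, abs_div, abs_of_pos h2]
  gcongr
  rw [abs_le]
  constructor <;> linarith

/-- ancestors -/
lemma floor_div (n m : ℕ) (a : ℝ) : ⌊(2 : ℝ) ^ (n + m) * a⌋ / 2 ^ m = ⌊(2 : ℝ) ^ n * a⌋ := by
  have h2 : (0 : ℝ) < 2 ^ m := by positivity
  have h := Int.floor_div_natCast ((2 : ℝ) ^ (n + m) * a) (2 ^ m)
  push_cast at h
  rw [← h]
  congr 1
  rw [pow_add]
  field_simp

lemma idx_succ (u v : X → ℝ) (n : ℕ) (x : X) :
    ((idx u v (n + 1) x).1 / 2, (idx u v (n + 1) x).2 / 2) = idx u v n x := by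
  have h1 := floor_div n 1 (u x)
  have h2 := floor_div n 1 (v x)
  rw [pow_one] at h1 h2
  exact Prod.ext h1 h2

lemma idx_anc (u v : X → ℝ) (n m : ℕ) (x : X) :
    ((idx u v (n + m) x).1 / 2 ^ m, (idx u v (n + m) x).2 / 2 ^ m) = idx u v n x :=
  Prod.ext (floor_div n m (u x)) (floor_div n m (v x))

lemma idx_eq_of_le {u v : X → ℝ} {n L : ℕ} (h : n ≤ L) {x y : X}
    (hxy : idx u v L x = idx u v L y) : idx u v n x = idx u v n y := by
  obtain ⟨m, rfl⟩ := Nat.exists_eq_add_of_le h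
  rw [← idx_anc u v n m x, ← idx_anc u v n m y, hxy]

/-- telescoping -/
lemma sum_cf (g : ℝ → ℝ → ℂ) (u v : X → ℝ) (x : X) (L : ℕ) :
    ∑ n ∈ Finset.range (L + 1), cf g n (idx u v n x) = cv g L (idx u v L x) := by
  induction L with
  | zero => simp [cf]
  | succ L ih =>
    rw [Finset.sum_range_succ, ih]
    show cv g L (idx u v L x) + (cv g (L + 1) (idx u v (L + 1) x)
      - cv g L ((idx u v (L + 1) x).1 / 2, (idx u v (L + 1) x).2 / 2)) = _
    rw [idx_succ]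
    ring

variable {g : ℝ → ℝ → ℂ} {Lg : ℝ}

lemma parent_near (n : ℕ) (i : ℤ) : |((i / 2 : ℤ) : ℝ) / 2 ^ n - (i : ℝ) / 2 ^ (n + 1)| ≤ 1 / 2 ^ (n + 1) := by
  have h2 : (0 : ℝ) < 2 ^ n := by positivity
  have h1 : (0 : ℤ) ≤ i % 2 := Int.emod_nonneg i (by norm_num)
  have h3 : i % 2 < 2 := Int.emod_lt_of_pos i (by norm_num)
  have h4 := Int.emod_add_mul_ediv i 2
  have h5 : (i : ℝ) = ((i % 2 : ℤ) : ℝ) + 2 * ((i / 2 : ℤ) : ℝ) := by exact_mod_cast h4.symm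
  have e : ((i / 2 : ℤ) : ℝ) / 2 ^ n - (i : ℝ) / 2 ^ (n + 1) = -((i % 2 : ℤ) : ℝ) / 2 ^ (n + 1) := by
    rw [h5, pow_succ]
    field_simp
    ring
  rw [e, abs_div, abs_of_pos (by positivity : (0 : ℝ) < 2 ^ (n + 1)), abs_neg]
  gcongr
  rw [abs_le]
  have h6 : ((i % 2 : ℤ) : ℝ) ≤ 1 := by exact_mod_cast (by omega : i % 2 ≤ 1)
  have h7 : (0 : ℝ) ≤ ((i % 2 : ℤ) : ℝ) := by exact_mod_cast h1
  constructor <;> linarith

theorem size (hg : ∀ a b a' b', ‖g a b - g a' b'‖ ≤ Lg * (|a - a'| + |b - b'|)) (hL : 0 ≤ Lg)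
    (h1 : ∀ a b, ‖g a b‖ ≤ 1) (n : ℕ) (i : ℤ × ℤ) : ‖cf g n i‖ ≤ (1 + 2 * Lg) / 2 ^ n := by
  cases n with
  | zero =>
    rw [pow_zero, div_one]
    exact (h1 _ _).trans (by linarith)
  | succ n =>
    show ‖g _ _ - g _ _‖ ≤ _
    refine (hg _ _ _ _).trans ?_
    have h3 := parent_near n i.1
    have h4 := parent_near n i.2
    rw [abs_sub_comm] at h3 h4
    have h2 : (0 : ℝ) < 2 ^ (n + 1) := by positivity
    calc Lg * _ ≤ Lg * (1 / 2 ^ (n + 1) + 1 / 2 ^ (n + 1)) := by gcongr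
      _ = (2 * Lg) / 2 ^ (n + 1) := by ring
      _ ≤ _ := by gcongr; linarith

/-- the coefficient vanishes off the window -/
lemma cf_zero {α β Cs V : ℝ} (hβ : |β| ≤ 1) (h0 : ∀ a b, Cs < |a + α + β * b| → g a b = 0)
    (n : ℕ) (i : ℤ × ℤ) (hV : |(i.2 : ℝ)| ≤ 2 ^ n * V + 1) (hi : i ∉ win α β Cs V n) :
    cf g n i = 0 := by
  rw [mem_win hβ, not_and, not_le] at hi
  have hi := hi hV
  cases n with
  | zero =>
    show g _ _ = 0
    exact h0 _ _ (by linarith)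
  | succ n =>
    show g _ _ - g _ _ = 0
    rw [h0 _ _ (by linarith), h0, sub_zero]
    have h3 := parent_near n i.1
    have h4 := parent_near n i.2
    have h2 : (1 : ℝ) / 2 ^ (n + 1) ≤ 1 := by
      rw [div_le_one (by positivity)]
      exact one_le_pow₀ (by norm_num)
    have h5 : |β * (((i.2 / 2 : ℤ) : ℝ) / 2 ^ n - (i.2 : ℝ) / 2 ^ (n + 1))| ≤ 1 := by
      rw [abs_mul]
      calc |β| * _ ≤ 1 * 1 := by gcongr; exact h4.trans h2
        _ = 1 := one_mul _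
    have h6 := h3.trans h2
    rw [abs_le] at h5 h6
    rcases lt_abs.1 hi with h7 | h7
    · refine lt_abs.2 (Or.inl ?_)
      show Cs < ((i.1 / 2 : ℤ) : ℝ) / 2 ^ n + α + β * (((i.2 / 2 : ℤ) : ℝ) / 2 ^ n)
      linarith
    · refine lt_abs.2 (Or.inr ?_)
      show Cs < -(((i.1 / 2 : ℤ) : ℝ) / 2 ^ n + α + β * (((i.2 / 2 : ℤ) : ℝ) / 2 ^ n))
      linarith

lemma idx_snd_le {u v : X → ℝ} {x : X} {V : ℝ} (h : |v x| ≤ V) (n : ℕ) :
    |((idx u v n x).2 : ℝ)| ≤ 2 ^ n * V + 1 := by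
  have h2 : (0 : ℝ) < 2 ^ n := by positivity
  have h1 := Int.floor_le ((2 : ℝ) ^ n * v x)
  have h3 := Int.lt_floor_add_one ((2 : ℝ) ^ n * v x)
  show |(⌊(2 : ℝ) ^ n * v x⌋ : ℝ)| ≤ _
  rw [abs_le] at h ⊢
  constructor <;> nlinarith

end Cells

section Main

variable {K : Type*} [NormedAddCommGroup K] [InnerProductSpace ℂ K] [CompleteSpace K]
variable {X : Type*} [MeasurableSpace X] {P : Set X → (K →L[ℂ] K)}

lemma measurable_idx {u v : X → ℝ} (hu : Measurable u) (hv : Measurable v) (n : ℕ) :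
    Measurable (idx u v n) :=
  (Int.measurable_floor.comp (hu.const_mul _)).prodMk (Int.measurable_floor.comp (hv.const_mul _))

lemma measurableSet_cell {D : Set X} (hD : MeasurableSet D) {u v : X → ℝ} (hu : Measurable u)
    (hv : Measurable v) (n : ℕ) (i : ℤ × ℤ) : MeasurableSet (cell D u v n i) :=
  hD.inter (measurable_idx hu hv n (measurableSet_singleton i))

lemma cell_disj (D : Set X) (u v : X → ℝ) (n : ℕ) {i j : ℤ × ℤ} (h : i ≠ j) :
    cell D u v n i ∩ cell D u v n j = ∅ := by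
  ext x
  simp only [cell, Set.mem_inter_iff, Set.mem_ofPred_eq, Set.mem_empty_iff_false, iff_false]
  rintro ⟨⟨_, h1⟩, _, h2⟩
  exact h (h1.symm.trans h2)

/-- **(dec)** -/
theorem dec (hP : Pv P) {D : Set X} (hD : MeasurableSet D) {u v : X → ℝ} (hu : Measurable u)
    (hv : Measurable v) {V : ℝ} (hV : ∀ x ∈ D, |v x| ≤ V) {g : ℝ → ℝ → ℂ} {Lg : ℝ} (hL : 0 ≤ Lg)
    (hg : ∀ a b a' b', ‖g a b - g a' b'‖ ≤ Lg * (|a - a'| + |b - b'|)) {α β Cs : ℝ}
    (hβ : |β| ≤ 1) (h0 : ∀ a b, Cs < |a + α + β * b| → g a b = 0) {W : K →L[ℂ] K}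
    (hWc : ∀ A, MeasurableSet A → W * P A = P A * W) (hWD : W * P Dᶜ = 0)
    (hW : ∀ A, MeasurableSet A → A ⊆ D → ∀ (c : ℂ) (e : ℝ), 0 ≤ e →
      (∀ x ∈ A, ‖g (u x) (v x) - c‖ ≤ e) →
      ‖(W - c • (1 : K →L[ℂ] K)) * P A‖ ≤ e) (L : ℕ) :
    ‖W - ∑ n ∈ Finset.range (L + 1), ∑ i ∈ win α β Cs V n, cf g n i • P (cell D u v n i)‖
      ≤ 2 * Lg / 2 ^ L := by
  classical
  have hm := fun n i => measurableSet_cell hD hu hv n i
  set T := W - ∑ n ∈ Finset.range (L + 1), ∑ i ∈ win α β Cs V n, cf g n i • P (cell D u v n i)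
    with hT
  have he : (0 : ℝ) ≤ 2 * Lg / 2 ^ L := by positivity
  have hTc : ∀ A, MeasurableSet A → T * P A = P A * T := by
    intro A hA
    rw [hT, sub_mul, mul_sub, hWc A hA, Finset.sum_mul, Finset.mul_sum]
    congr 1
    refine Finset.sum_congr rfl fun n _ => ?_
    rw [Finset.sum_mul, Finset.mul_sum]
    refine Finset.sum_congr rfl fun i _ => ?_
    rw [smul_mul_assoc, mul_smul_comm, hP.comm (hm n i) hA]
  -- the symbol
  let sy : X → ℂ := fun x => ∑ n ∈ Finset.range (L + 1), ∑ i ∈ win α β Cs V n,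
    if x ∈ cell D u v n i then cf g n i else 0
  have hsy : ∀ x ∈ D, sy x = cv g L (idx u v L x) := by
    intro x hx
    rw [← sum_cf]
    refine Finset.sum_congr rfl fun n _ => ?_
    by_cases hw : idx u v n x ∈ win α β Cs V n
    · rw [Finset.sum_eq_single (idx u v n x)]
      · rw [if_pos ⟨hx, rfl⟩]
      · intro i _ hi
        rw [if_neg]
        exact fun h => hi h.2.symm
      · exact fun h => absurd hw h
    · rw [cf_zero hβ h0 n _ (idx_snd_le (hV x hx) n) hw]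
      refine Finset.sum_eq_zero fun i hi => ?_
      rw [if_neg]
      exact fun h => hw (h.2 ▸ hi)
  -- atoms
  have atom : ∀ A : Set X, MeasurableSet A → A ⊆ D →
      (∀ x ∈ A, ∀ y ∈ A, ∀ n ≤ L, ∀ i ∈ win α β Cs V n,
        (x ∈ cell D u v n i ↔ y ∈ cell D u v n i)) →
      (∀ x ∈ A, ∀ y ∈ A, ‖g (u y) (v y) - sy x‖ ≤ 2 * Lg / 2 ^ L) →
        Good P T (2 * Lg / 2 ^ L) A := by
    intro A hA hAD h1 h2
    rcases A.eq_empty_or_nonempty with rfl | ⟨x, hx⟩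
    · exact Good.empty hP
    refine Good.of_norm hP hA ?_
    have e1 : (∑ n ∈ Finset.range (L + 1), ∑ i ∈ win α β Cs V n,
        cf g n i • P (cell D u v n i)) * P A = sy x • P A := by
      rw [Finset.sum_mul, Finset.sum_smul]
      refine Finset.sum_congr rfl fun n hn => ?_
      rw [Finset.sum_mul, Finset.sum_smul]
      refine Finset.sum_congr rfl fun i hi => ?_
      have hnL : n ≤ L := Nat.lt_succ_iff.1 (Finset.mem_range.1 hn)
      rw [smul_mul_assoc, ← hP.inter _ _ (hm n i) hA]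
      by_cases hxi : x ∈ cell D u v n i
      · rw [if_pos hxi, Set.inter_eq_right.2]
        exact fun y hy => (h1 x hx y hy n hnL i hi).1 hxi
      · rw [if_neg hxi, zero_smul]
        have : cell D u v n i ∩ A = ∅ := by
          ext y
          simp only [Set.mem_inter_iff, Set.mem_empty_iff_false, iff_false, not_and]
          exact fun h3 hy => hxi ((h1 x hx y hy n hnL i hi).2 h3)
        rw [this, hP.empty, smul_zero]
    have e2 : T * P A = (W - sy x • (1 : K →L[ℂ] K)) * P A := by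
      rw [hT, sub_mul, e1, sub_mul, smul_mul_assoc, one_mul]
    rw [e2]
    exact hW A hA hAD (sy x) _ he (fun y hy => h2 x hx y hy)
  -- the cover
  set w' := win α β (Cs + 5) V L with hw'
  have hU := Good.biUnion hP hTc he w' (fun i => cell D u v L i) (fun i _ => hm L i)
    (fun i _ => by
      refine atom _ (hm L i) (fun x hx => hx.1) ?_ ?_
      · intro x hx y hy n hn j _
        have h3 : idx u v n x = idx u v n y := idx_eq_of_le hn (hx.2.trans hy.2.symm)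
        simp only [cell, Set.mem_ofPred_eq, h3, hx.1, hy.1]
      · intro x hx y hy
        rw [hsy x hx.1, hx.2, ← hy.2]
        refine (hg _ _ _ _).trans ?_
        have h3 := corner_near L (u y)
        have h4 := corner_near L (v y)
        rw [abs_sub_comm] at h3 h4
        have h5 := mul_le_mul_of_nonneg_left (add_le_add h3 h4) hL
        refine h5.trans (le_of_eq ?_)
        ring)
  have hD' : Good P T (2 * Lg / 2 ^ L) Dᶜ := by
    refine Good.of_norm hP hD.compl ?_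
    have e1 : (∑ n ∈ Finset.range (L + 1), ∑ i ∈ win α β Cs V n,
        cf g n i • P (cell D u v n i)) * P Dᶜ = 0 := by
      rw [Finset.sum_mul]
      refine Finset.sum_eq_zero fun n _ => ?_
      rw [Finset.sum_mul]
      refine Finset.sum_eq_zero fun i _ => ?_
      rw [smul_mul_assoc, hP.disj (hm n i) hD.compl, smul_zero]
      exact Set.disjoint_left.2 fun x h1 h2 => h2 h1.1
    rw [hT, sub_mul, hWD, e1, sub_zero, norm_zero]
    exact he
  have key : ∀ x ∈ D, idx u v L x ∉ w' → ∀ n ≤ L, idx u v n x ∉ win α β Cs V n ∧ g (u x) (v x) = 0 := by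
    intro x hx hn n hnL
    rw [hw', mem_win hβ, not_and, not_le] at hn
    have h3 := hn (idx_snd_le (hV x hx) L)
    have a1 := corner_near L (u x)
    have a2 := corner_near L (v x)
    have a3 := corner_near n (u x)
    have a4 := corner_near n (v x)
    have o1 : (1 : ℝ) / 2 ^ L ≤ 1 := by
      rw [div_le_one (by positivity)]
      exact one_le_pow₀ (by norm_num)
    have o2 : (1 : ℝ) / 2 ^ n ≤ 1 := by
      rw [div_le_one (by positivity)]
      exact one_le_pow₀ (by norm_num)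
    have b1 : |β * ((⌊(2 : ℝ) ^ L * v x⌋ : ℝ) / 2 ^ L - v x)| ≤ 1 := by
      rw [abs_mul]
      calc |β| * _ ≤ 1 * 1 := by gcongr; exact a2.trans o1
        _ = 1 := one_mul _
    have b2 : |β * ((⌊(2 : ℝ) ^ n * v x⌋ : ℝ) / 2 ^ n - v x)| ≤ 1 := by
      rw [abs_mul]
      calc |β| * _ ≤ 1 * 1 := by gcongr; exact a4.trans o2
        _ = 1 := one_mul _
    have a1' := a1.trans o1
    have a3' := a3.trans o2
    rw [abs_le] at b1 b2 a1' a3'
    change Cs + 5 + 2 < |(⌊(2 : ℝ) ^ L * u x⌋ : ℝ) / 2 ^ L + α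
      + β * ((⌊(2 : ℝ) ^ L * v x⌋ : ℝ) / 2 ^ L)| at h3
    constructor
    · rw [mem_win hβ]
      intro h4
      have h5 := h4.2
      change |(⌊(2 : ℝ) ^ n * u x⌋ : ℝ) / 2 ^ n + α
        + β * ((⌊(2 : ℝ) ^ n * v x⌋ : ℝ) / 2 ^ n)| ≤ Cs + 2 at h5
      rw [abs_le] at h5
      rcases lt_abs.1 h3 with h6 | h6 <;> linarith [h5.1, h5.2]
    · refine h0 _ _ ?_
      rcases lt_abs.1 h3 with h6 | h6
      · exact lt_abs.2 (Or.inl (by linarith))
      · exact lt_abs.2 (Or.inr (by linarith))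
  have hR : Good P T (2 * Lg / 2 ^ L) (D \ ⋃ i ∈ w', cell D u v L i) := by
    have hmem : ∀ x ∈ D \ ⋃ i ∈ w', cell D u v L i, x ∈ D ∧ idx u v L x ∉ w' := by
      intro x hx
      refine ⟨hx.1, fun h => hx.2 ?_⟩
      exact Set.mem_biUnion h ⟨hx.1, rfl⟩
    have hno : ∀ x ∈ D \ ⋃ i ∈ w', cell D u v L i, ∀ n ≤ L, ∀ i ∈ win α β Cs V n,
        x ∉ cell D u v n i := by
      intro x hx n hn i hi h3
      obtain ⟨h4, h5⟩ := hmem x hx
      exact (key x h4 h5 n hn).1 (h3.2 ▸ hi)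
    refine atom _ (hD.diff hU.2) (fun x hx => hx.1) ?_ ?_
    · intro x hx y hy n hn i hi
      exact ⟨fun h => absurd h (hno x hx n hn i hi), fun h => absurd h (hno y hy n hn i hi)⟩
    · intro x hx y hy
      obtain ⟨h4, h5⟩ := hmem y hy
      have e1 : sy x = 0 := by
        refine Finset.sum_eq_zero fun n hn => Finset.sum_eq_zero fun i hi => ?_
        rw [if_neg (hno x hx n (Nat.lt_succ_iff.1 (Finset.mem_range.1 hn)) i hi)]
      rw [e1, (key y h4 h5 0 (Nat.zero_le _)).2, sub_self, norm_zero]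
      exact he
  have hall : Good P T (2 * Lg / 2 ^ L) Set.univ := by
    have h3 := Good.union hP hTc he hU.2 (hD.diff hU.2) hU.1 hR
    have h4 := Good.union hP hTc he (hU.2.union (hD.diff hU.2)) hD.compl h3 hD'
    have : ((⋃ i ∈ w', cell D u v L i) ∪ (D \ ⋃ i ∈ w', cell D u v L i)) ∪ Dᶜ = Set.univ := by
      ext x
      simp only [Set.mem_union, Set.mem_sdiff, Set.mem_compl_iff, Set.mem_univ, iff_true]
      tauto
    rwa [this] at h4
  exact Good.norm_le hP he hall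

end Main

end Vale.Agent.P092.H835.Dec
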