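import Mathlib
import Vale.Agent.P092.H464.Coef
import Vale.Agent.P092.H466.Pvm2

/-!
P092, TEAM D, [KP4] (helper835): `pv φ` is a `Pv`; the operator `W = φ F * pv φ Ch`.
-/

namespace Vale.Agent.P092.H835

open Vale.Agent.P092.H464 Vale.Agent.P092.H466 Set

variable {X : Type*} [TopologicalSpace X] [CompactSpace X] [TopologicalSpace.MetrizableSpace X]
  [MeasurableSpace X] [BorelSpace X]
variable {K : Type*} [NormedAddCommGroup K] [InnerProductSpace ℂ K] [CompleteSpace K]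
variable (φ : C(X, ℂ) →⋆ₐ[ℂ] (K →L[ℂ] K))

theorem pv_isPv : Pv (pv φ) where
  sa := fun A _ => pv_star φ A
  inter := fun _ _ hA hB => pv_inter φ hA hB
  compl := fun _ hA => pv_compl φ hA

/-- the operator `φ F * pv φ Ch` -/
noncomputable def Wop (F : C(X, ℂ)) (Ch : Set X) : K →L[ℂ] K := φ F * pv φ Ch

theorem Wop_comm (F : C(X, ℂ)) (Ch A : Set X) : Wop φ F Ch * pv φ A = pv φ A * Wop φ F Ch := by
  rw [Wop, mul_assoc, pv_comm φ Ch A, ← mul_assoc, phi_pv_comm, mul_assoc]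

theorem Wop_compl (F : C(X, ℂ)) {Ch : Set X} : Wop φ F Ch * pv φ Chᶜ = 0 := by
  rw [Wop, mul_assoc, pv_disj φ disjoint_compl_right, mul_zero]

theorem Wop_near (F : C(X, ℂ)) {Ch A : Set X} (hC : MeasurableSet Ch) (hA : MeasurableSet A)
    (hAC : A ⊆ Ch) (c : ℂ) {e : ℝ} (he : 0 ≤ e) (h : ∀ x ∈ A, ‖F x - c‖ ≤ e) :
    ‖(Wop φ F Ch - c • (1 : K →L[ℂ] K)) * pv φ A‖ ≤ e := by
  have e1 : (Wop φ F Ch - c • (1 : K →L[ℂ] K)) * pv φ A
      = φ (F - algebraMap ℂ C(X, ℂ) c) * pv φ A := by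
    rw [sub_mul, map_sub, sub_mul, Wop, mul_assoc, pv_sub_right φ hA hC hAC, AlgHomClass.commutes,
      Algebra.algebraMap_eq_smul_one]
  rw [e1]
  refine ContinuousLinearMap.opNorm_le_bound _ he (fun ξ => ?_)
  refine (norm_phi_pv_le φ he (f := F - algebraMap ℂ C(X, ℂ) c) (A := A) ?_ ξ).trans ?_
  · intro x hx
    exact h x hx
  · gcongr
    exact norm_pv_le φ A ξ

/-- `‖W‖ ≤ 1` if `|F| ≤ 1` on the chart -/
theorem Wop_norm_le (F : C(X, ℂ)) {Ch : Set X} (h : ∀ x ∈ Ch, ‖F x‖ ≤ 1) : ‖Wop φ F Ch‖ ≤ 1 := by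
  refine ContinuousLinearMap.opNorm_le_bound _ zero_le_one (fun ξ => ?_)
  refine (norm_phi_pv_le φ zero_le_one h ξ).trans ?_
  gcongr
  exact norm_pv_le φ Ch ξ

/-- **(KP4)** `W = φ F * pv φ (Ch s)` is `∫_{Ch} F dP` -/
theorem Wop_Fun {s : X → Fin 3 → ℝ} (hs : Measurable s) (F : C(X, ℂ)) :
    Fun s (pv φ) F (Wop φ F (Ch s)) where
  comm := fun A _ => Wop_comm φ F (Ch s) A
  off := Wop_compl φ F
  approx := fun _ hAC hA c _ he h => Wop_near φ F (meas_Ch hs) hA hAC c he h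

end Vale.Agent.P092.H835
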