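import Vale.Agent.P092.SN.Defs
import Vale.Agent.P092.H835.NFSL
import Vale.Agent.P092.H835.PlGr

/-!
# P092, Team N, [N-K]: `nfsl` in the letters of SN/Defs (functions of 1-dimensional subspaces)
-/

set_option linter.unusedSectionVars false

namespace Vale.Agent.P092.H835.NF

open Finset Matrix Topology Vale.Agent.P092.H820 Vale.Agent.P092.H87.N
open Vale.Agent.P092.SN
open Vale.Agent.P092.RC (GG YY ct)
open Vale.Agent.P092.H100.Gr (Gr)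
open Vale.Agent.P092.H644.Gr3 (p1 hyp)
open scoped LinearAlgebra.Projectivization

variable {k : Type} [NontriviallyNormedField k] [ProperSpace k] {N : ℕ}

theorem smul_p1 (g : GG k N) (x : YY k N) : g • p1 x = p1 (g • x) := by
  refine Subtype.ext ?_
  rw [H644.Gr3.p1_smul]
  rfl

/-- a vector of a 1-dimensional subspace represents it -/
theorem eq_p1 {L : Gr k (Fin (N + 1)) 1} {x : Fin (N + 1) → k} (hx : x ≠ 0) (hxL : x ∈ L.1) :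
    L = p1 (cl x hx) := by
  refine (Vale.Agent.P092.H100.Gr.eq_of_le ?_).symm
  exact (H644.Gr3.p1_le_mk (hv := hx)).2 hxL

/-- **`nfsl` for functions of 1-dimensional subspaces, letters of SN/Defs** -/
theorem nfsl_gr (hN : 0 < N) (R : ℝ) {A : Set (YY k N)} (f : CG k N 1)
    (hAf : ∀ M ∈ closure A, ∀ x ∈ tsupport f, ¬ x.1 ≤ (hyp M).1) :
    ∃ T₀ : ℝ, 0 < T₀ ∧ ∃ C : ℝ, 1 ≤ C ∧ ∀ T ≥ T₀, ∀ s : ℝ, 0 ≤ s →
      ∀ g : GG k N, Real.exp s ≤ nm (ct g) → nm (ct g) ≤ Real.exp (s + 1) → NW R (ct g) →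
      Att T A (ct g) → ∀ i j, (∀ a b, ‖(ct g).1 a b‖ ≤ ‖(ct g).1 i j‖) →
      (∃ (c ϖ : k) (B B' : Matrix (Fin (N + 1)) (Fin (N + 1)) k), c ≠ 0 ∧ ϖ ≠ 0 ∧
        Real.exp (s / N) ≤ ‖c‖ ∧ ‖c‖ ≤ C * Real.exp (s / N) ∧
        g.1 = c • (B * Dm j (yy (ct g).1 i j) ϖ) ∧ B' * B = 1 ∧ B * B' = 1 ∧
        (∀ x y, ‖B x y‖ ≤ C) ∧ (∀ x y, ‖B' x y‖ ≤ C) ∧
        ‖ϖ‖ ≤ C * rr N s ∧ rr N s ≤ C * ‖ϖ‖) ∧
      yy (ct g).1 i j j = 1 ∧ ‖yy (ct g).1 i j‖ = 1 ∧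
      ∀ L : Gr k (Fin (N + 1)) 1, g • L ∈ tsupport f → ∀ x ∈ L.1, x ≠ 0 →
        ‖wd x (yy (ct g).1 i j)‖ ≤ C * rr N s * ‖x‖ ∧
        (C * rr N s ≤ 1 / 2 → ‖x‖ ≤ 2 * ‖x j‖ ∧ x j ≠ 0 ∧
          ‖(x j)⁻¹ • x - yy (ct g).1 i j‖ ≤ 2 * (C * rr N s)) := by
  have hY : IsClosed ((p1 : YY k N → Gr k (Fin (N + 1)) 1) ⁻¹' tsupport f) :=
    (isClosed_tsupport f).preimage H644.Gr3.p1_cont
  obtain ⟨T₀, hT₀, C, hC, H⟩ := nfsl (m := N) (by simp) hN R (A := A) hY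
    (fun x hx p hp ho => hAf x hx (p1 p) hp (H644.Gr3.p1_le_hyp.2 ho))
  refine ⟨T₀, hT₀, C, hC, fun T hT s hs g h1 h2 h3 h4 i j hp => ?_⟩
  obtain ⟨a1, a2, a3, a4⟩ := H T hT s hs g h1 h2 h3 h4 i j hp
  refine ⟨a1, a2, a3, fun L hL x hxL hx => a4 x hx ?_⟩
  have e := eq_p1 hx hxL
  rw [e, smul_p1] at hL
  exact hL

end Vale.Agent.P092.H835.NF
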