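import Mathlib

/-!
# P092, Team N, [N-K-PL]: near-wall matrices on lines, in Pluecker letters

Every normed field, every dimension.  `mn p q` are the 2 x 2 minors of `(p, q)`.
If `B = v ⊗ φ + E` is the inverse of `A`, with `|v ⊗ φ| <= P`, `|E| <= Q`, the minors of
`(A p, A q)` are bounded from below by those of `(p, q)` (constant `1/(PQ)`) and by those of
`(p, q)` modulo `v` (constant `1/Q²`).  On a cell of lines the minors of `(A p, A q)` are
`A_0 + Σ_α A_α τ^α` with finitely many monomials and `Σ_α |A_α| <= K ε max |A_0|`.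
-/

namespace Vale.Agent.P092.H835.Pl

open Finset Matrix

set_option linter.unusedSectionVars false

variable {𝕜 : Type*} [NormedField 𝕜] {ι : Type*} [Fintype ι]

/-- the 2 x 2 minors -/
def mn (p q : ι → 𝕜) (i j : ι) : 𝕜 := p i * q j - p j * q i

/-- two linear forms on a pair of vectors -/
theorem forms (x y P Q : ι → 𝕜) :
    (∑ l, x l * P l) * (∑ m, y m * Q m) - (∑ m, y m * P m) * (∑ l, x l * Q l) =
      ∑ l, ∑ m, x l * y m * mn P Q l m := by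
  rw [Finset.sum_mul_sum, mul_comm (∑ m, y m * P m), Finset.sum_mul_sum,
    ← Finset.sum_sub_distrib]
  refine Finset.sum_congr rfl fun l _ => ?_
  rw [← Finset.sum_sub_distrib]
  refine Finset.sum_congr rfl fun m _ => ?_
  simp only [mn]; ring

theorem forms_self (x P Q : ι → 𝕜) : ∑ l, ∑ m, x l * x m * mn P Q l m = 0 := by
  rw [← forms]; ring

/-- **lower bound 1**, in the form of an upper bound for the minors of `(B X, B Y)` -/
theorem lower1 {B E : Matrix ι ι 𝕜} {v φ : ι → 𝕜} (hB : ∀ i j, B i j = v i * φ j + E i j)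
    {P Q : ℝ} (hP : ∀ i j, ‖v i * φ j‖ ≤ P) (hQ : ∀ i j, ‖E i j‖ ≤ Q)
    {X Y : ι → 𝕜} {M : ℝ} (hM : ∀ i j, ‖mn X Y i j‖ ≤ M) (i j : ι) :
    ‖mn (B *ᵥ X) (B *ᵥ Y) i j‖ ≤ (Fintype.card ι : ℝ) ^ 2 * ((2 * P * Q + Q ^ 2) * M) := by
  have hP0 : 0 ≤ P := (norm_nonneg _).trans (hP i i)
  have hQ0 : 0 ≤ Q := (norm_nonneg _).trans (hQ i i)
  have e : mn (B *ᵥ X) (B *ᵥ Y) i j =
      ∑ l, ∑ m, (v i * φ l * E j m + E i l * (v j * φ m) + E i l * E j m) * mn X Y l m := by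
    have h1 := forms (fun l => B i l) (fun m => B j m) X Y
    have h2 := forms_self φ X Y
    have : ∑ l, ∑ m, (v i * φ l * E j m + E i l * (v j * φ m) + E i l * E j m) * mn X Y l m
        = ∑ l, ∑ m, B i l * B j m * mn X Y l m - v i * v j * ∑ l, ∑ m, φ l * φ m * mn X Y l m := by
      rw [Finset.mul_sum, ← Finset.sum_sub_distrib]
      refine Finset.sum_congr rfl fun l _ => ?_
      rw [Finset.mul_sum, ← Finset.sum_sub_distrib]
      refine Finset.sum_congr rfl fun m _ => ?_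
      rw [hB, hB]; ring
    rw [this, h2, mul_zero, sub_zero, ← h1]
    rfl
  rw [e]
  have hb : ∀ l m, ‖(v i * φ l * E j m + E i l * (v j * φ m) + E i l * E j m) * mn X Y l m‖ ≤
      (2 * P * Q + Q ^ 2) * M := by
    intro l m
    rw [norm_mul]
    refine mul_le_mul ?_ (hM l m) (norm_nonneg _) (by positivity)
    refine (norm_add₃_le).trans ?_
    rw [norm_mul (v i * φ l), norm_mul (E i l) (v j * φ m), norm_mul (E i l) (E j m)]
    have a1 := mul_le_mul (hP i l) (hQ j m) (norm_nonneg _) hP0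
    have a2 := mul_le_mul (hQ i l) (hP j m) (norm_nonneg _) hQ0
    have a3 := mul_le_mul (hQ i l) (hQ j m) (norm_nonneg _) hQ0
    nlinarith
  calc ‖∑ l, ∑ m, (v i * φ l * E j m + E i l * (v j * φ m) + E i l * E j m) * mn X Y l m‖
      ≤ ∑ l, ∑ m, ‖(v i * φ l * E j m + E i l * (v j * φ m) + E i l * E j m) * mn X Y l m‖ :=
        (norm_sum_le _ _).trans (Finset.sum_le_sum fun l _ => norm_sum_le _ _)
    _ ≤ ∑ _l : ι, ∑ _m : ι, (2 * P * Q + Q ^ 2) * M :=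
        Finset.sum_le_sum fun l _ => Finset.sum_le_sum fun m _ => hb l m
    _ = _ := by simp only [Finset.sum_const, Finset.card_univ, nsmul_eq_mul]; ring

/-- reduction modulo `η`, `η i0 = 1` -/
def red (i0 : ι) (η w : ι → 𝕜) (i : ι) : 𝕜 := w i - w i0 * η i

/-- **lower bound 2**: modulo `v` only `E` counts -/
theorem lower2 {B E : Matrix ι ι 𝕜} {v φ : ι → 𝕜} (hB : ∀ i j, B i j = v i * φ j + E i j)
    {i0 : ι} {η : ι → 𝕜} (hv : ∀ i, v i = v i0 * η i) {C Q : ℝ} (hη : ∀ i, ‖η i‖ ≤ C)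
    (hQ : ∀ i j, ‖E i j‖ ≤ Q)
    {X Y : ι → 𝕜} {M : ℝ} (hM : ∀ i j, ‖mn X Y i j‖ ≤ M) (i j : ι) :
    ‖mn (red i0 η (B *ᵥ X)) (red i0 η (B *ᵥ Y)) i j‖ ≤
      (Fintype.card ι : ℝ) ^ 2 * ((Q * (1 + C)) ^ 2 * M) := by
  have hQ0 : 0 ≤ Q := (norm_nonneg _).trans (hQ i i)
  have hC0 : 0 ≤ C := (norm_nonneg _).trans (hη i)
  have hr : ∀ (X : ι → 𝕜) i, red i0 η (B *ᵥ X) i = ∑ l, (E i l - E i0 l * η i) * X l := by
    intro X i
    simp only [red, Matrix.mulVec, dotProduct]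
    rw [Finset.sum_mul, ← Finset.sum_sub_distrib]
    refine Finset.sum_congr rfl fun l _ => ?_
    rw [hB, hB, hv i]; ring
  have e : mn (red i0 η (B *ᵥ X)) (red i0 η (B *ᵥ Y)) i j =
      ∑ l, ∑ m, (E i l - E i0 l * η i) * (E j m - E i0 m * η j) * mn X Y l m := by
    rw [← forms (fun l => E i l - E i0 l * η i) (fun m => E j m - E i0 m * η j) X Y]
    simp only [mn, hr]
  have hx : ∀ i l, ‖E i l - E i0 l * η i‖ ≤ Q * (1 + C) := by
    intro i l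
    refine (norm_sub_le _ _).trans ?_
    rw [norm_mul]
    have := mul_le_mul (hQ i0 l) (hη i) (norm_nonneg _) hQ0
    have := hQ i l
    linarith
  rw [e]
  have hb : ∀ l m, ‖(E i l - E i0 l * η i) * (E j m - E i0 m * η j) * mn X Y l m‖ ≤
      (Q * (1 + C)) ^ 2 * M := by
    intro l m
    rw [norm_mul, norm_mul, pow_two]
    refine mul_le_mul (mul_le_mul (hx i l) (hx j m) (norm_nonneg _) (by positivity)) (hM l m)
      (norm_nonneg _) (by positivity)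
  calc ‖∑ l, ∑ m, (E i l - E i0 l * η i) * (E j m - E i0 m * η j) * mn X Y l m‖
      ≤ ∑ l, ∑ m, ‖(E i l - E i0 l * η i) * (E j m - E i0 m * η j) * mn X Y l m‖ :=
        (norm_sum_le _ _).trans (Finset.sum_le_sum fun l _ => norm_sum_le _ _)
    _ ≤ ∑ _l : ι, ∑ _m : ι, (Q * (1 + C)) ^ 2 * M :=
        Finset.sum_le_sum fun l _ => Finset.sum_le_sum fun m _ => hb l m
    _ = _ := by simp only [Finset.sum_const, Finset.card_univ, nsmul_eq_mul]; ring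

/-! ## minors are bilinear -/

theorem mn_add_left (p p' q : ι → 𝕜) (i j : ι) : mn (p + p') q i j = mn p q i j + mn p' q i j := by
  simp only [mn, Pi.add_apply]; ring

theorem mn_add_right (p q q' : ι → 𝕜) (i j : ι) :
    mn p (q + q') i j = mn p q i j + mn p q' i j := by
  simp only [mn, Pi.add_apply]; ring

theorem mn_smul_left (c : 𝕜) (p q : ι → 𝕜) (i j : ι) : mn (c • p) q i j = c * mn p q i j := by
  simp only [mn, Pi.smul_apply, smul_eq_mul]; ring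

theorem mn_smul_right (c : 𝕜) (p q : ι → 𝕜) (i j : ι) : mn p (c • q) i j = c * mn p q i j := by
  simp only [mn, Pi.smul_apply, smul_eq_mul]; ring

theorem mn_self (p : ι → 𝕜) (i j : ι) : mn p p i j = 0 := by
  simp only [mn]; ring

theorem norm_mn_le {p q : ι → 𝕜} {a b : ℝ} (hp : ∀ i, ‖p i‖ ≤ a) (hq : ∀ i, ‖q i‖ ≤ b) (i j : ι) :
    ‖mn p q i j‖ ≤ 2 * (a * b) := by
  have ha : 0 ≤ a := (norm_nonneg _).trans (hp i)
  have hb : 0 ≤ b := (norm_nonneg _).trans (hq i)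
  refine (norm_sub_le _ _).trans ?_
  rw [norm_mul, norm_mul]
  have := mul_le_mul (hp i) (hq j) (norm_nonneg _) ha
  have := mul_le_mul (hp j) (hq i) (norm_nonneg _) ha
  linarith

/-- the column `A e_i` -/
def col (A : Matrix ι ι 𝕜) (i : ι) : ι → 𝕜 := fun x => A x i

theorem mulVec_eq (A : Matrix ι ι 𝕜) (w : ι → 𝕜) : A *ᵥ w = ∑ i, w i • col A i := by
  funext x
  simp only [Matrix.mulVec, dotProduct, Finset.sum_apply, Pi.smul_apply, smul_eq_mul, col]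
  exact Finset.sum_congr rfl fun i _ => mul_comm _ _

theorem mn_mulVec_left (A : Matrix ι ι 𝕜) (w q : ι → 𝕜) (l m : ι) :
    mn (A *ᵥ w) q l m = ∑ i, w i * mn (col A i) q l m := by
  simp only [mn, Matrix.mulVec, dotProduct, col, mul_sub, Finset.sum_sub_distrib,
    Finset.sum_mul]
  congr 1 <;> exact Finset.sum_congr rfl fun i _ => by ring

theorem mn_mulVec_right (A : Matrix ι ι 𝕜) (p w : ι → 𝕜) (l m : ι) :
    mn p (A *ᵥ w) l m = ∑ i, w i * mn p (col A i) l m := by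
  simp only [mn, Matrix.mulVec, dotProduct, col, mul_sub, Finset.sum_sub_distrib,
    Finset.mul_sum]
  congr 1 <;> exact Finset.sum_congr rfl fun i _ => by ring

/-- **the minors of `(A (p₀ + μ x + σ λ y), A (q₀ + λ y))`**, `x, y` the box coordinates:
constant term, terms `x_i`, terms `y_j`, terms `x_i y_j`; nothing else. -/
theorem expand (A : Matrix ι ι 𝕜) (p₀ q₀ x y : ι → 𝕜) (μ lam σ : 𝕜) (l m : ι) :
    mn (A *ᵥ (p₀ + μ • x + (σ * lam) • y)) (A *ᵥ (q₀ + lam • y)) l m =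
      mn (A *ᵥ p₀) (A *ᵥ q₀) l m
      + ∑ i, x i * (μ * mn (col A i) (A *ᵥ q₀) l m)
      + ∑ j, y j * (σ * lam * mn (col A j) (A *ᵥ q₀) l m + lam * mn (A *ᵥ p₀) (col A j) l m)
      + ∑ i, ∑ j, x i * y j * (μ * lam * mn (col A i) (col A j) l m) := by
  have h1 : mn (A *ᵥ (p₀ + μ • x + (σ * lam) • y)) (A *ᵥ (q₀ + lam • y)) l m =
      mn (A *ᵥ p₀) (A *ᵥ q₀) l m + μ * mn (A *ᵥ x) (A *ᵥ q₀) l m
      + (σ * lam * mn (A *ᵥ y) (A *ᵥ q₀) l m + lam * mn (A *ᵥ p₀) (A *ᵥ y) l m)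
      + μ * lam * mn (A *ᵥ x) (A *ᵥ y) l m := by
    simp only [Matrix.mulVec_add, Matrix.mulVec_smul, mn_add_left, mn_add_right, mn_smul_left,
      mn_smul_right, mn_self]
    ring
  rw [h1, mn_mulVec_left A x (A *ᵥ q₀), mn_mulVec_left A y (A *ᵥ q₀),
    mn_mulVec_right A (A *ᵥ p₀) y, mn_mulVec_left A x (A *ᵥ y)]
  simp only [mn_mulVec_right]
  congr 1
  · congr 1
    · congr 1
      rw [Finset.mul_sum]
      exact Finset.sum_congr rfl fun i _ => by ring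
    · rw [Finset.mul_sum, Finset.mul_sum, ← Finset.sum_add_distrib]
      exact Finset.sum_congr rfl fun i _ => by ring
  · rw [Finset.mul_sum]
    refine Finset.sum_congr rfl fun i _ => ?_
    rw [Finset.mul_sum, Finset.mul_sum]
    exact Finset.sum_congr rfl fun j _ => by ring

/-! ## near-wall data and the cell estimate -/

/-- near-wall data: `B = A⁻¹ = v ⊗ φ + E`, size `N`, ratio `r`, `η = v / v_{i0}` the repelling
point, everything up to the constant `C` -/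
structure Nw (i0 : ι) (A B : Matrix ι ι 𝕜) (η : ι → 𝕜) (N r C : ℝ) : Prop where
  N_pos : 0 < N
  r_pos : 0 < r
  r_le : r ≤ 1
  C_one : 1 ≤ C
  inv : ∀ w, B *ᵥ (A *ᵥ w) = w
  dec : ∃ (v φ : ι → 𝕜) (E : Matrix ι ι 𝕜), (∀ i j, B i j = v i * φ j + E i j) ∧
    (∀ i, v i = v i0 * η i) ∧ (∀ i j, ‖v i * φ j‖ ≤ C / (r * N)) ∧ ∀ i j, ‖E i j‖ ≤ C / N
  eta0 : η i0 = 1
  eta : ∀ i, ‖η i‖ ≤ C
  size : ∀ i j, ‖A i j‖ ≤ C * N
  small : ∀ i, ‖(A *ᵥ η) i‖ ≤ C * (r * N)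

variable {i0 i1 : ι} {A B : Matrix ι ι 𝕜} {η : ι → 𝕜} {N r C : ℝ}

theorem Nw.low1 (h : Nw i0 A B η N r C) (p q : ι → 𝕜) {M : ℝ}
    (hM : ∀ i j, ‖mn (A *ᵥ p) (A *ᵥ q) i j‖ ≤ M) (i j : ι) :
    r * N ^ 2 * ‖mn p q i j‖ ≤ 3 * (Fintype.card ι : ℝ) ^ 2 * C ^ 2 * M := by
  obtain ⟨v, φ, E, hB, hv, hP, hQ⟩ := h.dec
  have hN := h.N_pos
  have hr := h.r_pos
  have hC : 0 < C := lt_of_lt_of_le one_pos h.C_one
  have hM0 : 0 ≤ M := (norm_nonneg _).trans (hM i j)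
  have key := lower1 hB hP hQ hM i j
  rw [h.inv, h.inv] at key
  have e1 : r * N ^ 2 * (2 * (C / (r * N)) * (C / N) + (C / N) ^ 2) = (2 + r) * C ^ 2 := by
    field_simp
  calc r * N ^ 2 * ‖mn p q i j‖
      ≤ r * N ^ 2 * ((Fintype.card ι : ℝ) ^ 2 *
          ((2 * (C / (r * N)) * (C / N) + (C / N) ^ 2) * M)) :=
        mul_le_mul_of_nonneg_left key (by positivity)
    _ = (Fintype.card ι : ℝ) ^ 2 * ((r * N ^ 2 *
          (2 * (C / (r * N)) * (C / N) + (C / N) ^ 2)) * M) := by ring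
    _ = (Fintype.card ι : ℝ) ^ 2 * ((2 + r) * C ^ 2 * M) := by rw [e1]
    _ ≤ (Fintype.card ι : ℝ) ^ 2 * (3 * C ^ 2 * M) := by
        have := h.r_le
        gcongr
        linarith
    _ = _ := by ring

theorem Nw.low2 (h : Nw i0 A B η N r C) (p q : ι → 𝕜) {M : ℝ}
    (hM : ∀ i j, ‖mn (A *ᵥ p) (A *ᵥ q) i j‖ ≤ M) (i j : ι) :
    N ^ 2 * ‖mn (red i0 η p) (red i0 η q) i j‖ ≤
      (Fintype.card ι : ℝ) ^ 2 * C ^ 2 * (1 + C) ^ 2 * M := by
  obtain ⟨v, φ, E, hB, hv, hP, hQ⟩ := h.dec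
  have hN := h.N_pos
  have key := lower2 hB hv h.eta hQ hM i j
  rw [h.inv, h.inv] at key
  have e1 : N ^ 2 * (C / N * (1 + C)) ^ 2 = C ^ 2 * (1 + C) ^ 2 := by
    field_simp
  calc N ^ 2 * ‖mn (red i0 η p) (red i0 η q) i j‖
      ≤ N ^ 2 * ((Fintype.card ι : ℝ) ^ 2 * ((C / N * (1 + C)) ^ 2 * M)) :=
        mul_le_mul_of_nonneg_left key (by positivity)
    _ = (Fintype.card ι : ℝ) ^ 2 * ((N ^ 2 * (C / N * (1 + C)) ^ 2) * M) := by ring
    _ = _ := by rw [e1]; ring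

/-- **the Pluecker vector of `A L` is at least `c N² max(r, |o|)`**, `L` the line through
`η + o` with direction `q` (`q i0 = 0`, `q i1 = 1`), `o i0 = o i1 = 0`. -/
theorem Nw.low (h : Nw i0 A B η N r C) {o q : ι → 𝕜} (ho0 : o i0 = 0)
    (ho1 : o i1 = 0) (hq0 : q i0 = 0) (hq1 : q i1 = 1) {M : ℝ}
    (hM : ∀ i j, ‖mn (A *ᵥ (η + o)) (A *ᵥ q) i j‖ ≤ M) :
    N ^ 2 * max r ‖o‖ ≤ (3 * (Fintype.card ι : ℝ) ^ 2 * C ^ 2 +
      (Fintype.card ι : ℝ) ^ 2 * C ^ 2 * (1 + C) ^ 2) * M := by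
  have hN := h.N_pos
  have hC : 0 < C := lt_of_lt_of_le one_pos h.C_one
  have hM0 : 0 ≤ M := (norm_nonneg _).trans (hM i0 i1)
  have a1 := h.low1 _ _ hM i0 i1
  have e1 : mn (η + o) q i0 i1 = 1 := by
    simp only [mn, Pi.add_apply, h.eta0, ho0, ho1, hq0, hq1]; ring
  rw [e1, norm_one, mul_one] at a1
  have a2 : ∀ i, N ^ 2 * ‖o i‖ ≤ (Fintype.card ι : ℝ) ^ 2 * C ^ 2 * (1 + C) ^ 2 * M := by
    intro i
    have := h.low2 _ _ hM i i1
    have e2 : mn (red i0 η (η + o)) (red i0 η q) i i1 = o i := by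
      simp only [mn, red, Pi.add_apply, h.eta0, ho0, ho1, hq0, hq1]; ring
    rwa [e2] at this
  have a3 : N ^ 2 * ‖o‖ ≤ (Fintype.card ι : ℝ) ^ 2 * C ^ 2 * (1 + C) ^ 2 * M := by
    have hb : 0 ≤ (Fintype.card ι : ℝ) ^ 2 * C ^ 2 * (1 + C) ^ 2 * M := by positivity
    have : ‖o‖ ≤ ((Fintype.card ι : ℝ) ^ 2 * C ^ 2 * (1 + C) ^ 2 * M) / N ^ 2 := by
      rw [pi_norm_le_iff_of_nonneg (by positivity)]
      intro i
      rw [le_div_iff₀ (by positivity), mul_comm]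
      exact a2 i
    rw [le_div_iff₀ (by positivity), mul_comm] at this
    exact this
  have h1 : 0 ≤ 3 * (Fintype.card ι : ℝ) ^ 2 * C ^ 2 * M := by positivity
  have h2 : 0 ≤ (Fintype.card ι : ℝ) ^ 2 * C ^ 2 * (1 + C) ^ 2 * M := by positivity
  rw [add_mul]
  rcases le_total r ‖o‖ with hr | hr
  · rw [max_eq_right hr]; linarith
  · rw [max_eq_left hr]; nlinarith

/-- the constant of the cell estimate -/
noncomputable def Kc (n C : ℝ) : ℝ :=
  (2 * n ^ 2 * C ^ 3 + 2 * n ^ 2 * C ^ 4 + 2 * n * (1 + n) * C ^ 3 + 2 * n ^ 2 * C ^ 2) *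
    (C * (3 * n ^ 2 * C ^ 2 + n ^ 2 * C ^ 2 * (1 + C) ^ 2))

/-- **the cell estimate** -/
theorem Nw.cell (h : Nw i0 A B η N r C) {o q : ι → 𝕜} (ho0 : o i0 = 0)
    (ho1 : o i1 = 0) (hq0 : q i0 = 0) (hq1 : q i1 = 1) (hq : ∀ i, ‖q i‖ ≤ C)
    {δ t ε : ℝ} (hε1 : ε ≤ 1) (hδ : δ ≤ C * max r ‖o‖) (hoδ : ‖o‖ ≤ C * δ)
    (hrδ : r ≤ C * δ) (ht : δ ≤ t)
    {μ lam σ : 𝕜} (hμ : ‖μ‖ ≤ ε * δ) (hl : ‖lam‖ * t ≤ ε * δ) (hσ : ‖σ‖ ≤ C * t)
    {M : ℝ} (hM : ∀ i j, ‖mn (A *ᵥ (η + o)) (A *ᵥ q) i j‖ ≤ M) (l m : ι) :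
    ∑ i, ‖μ * mn (col A i) (A *ᵥ q) l m‖
      + ∑ j, ‖σ * lam * mn (col A j) (A *ᵥ q) l m + lam * mn (A *ᵥ (η + o)) (col A j) l m‖
      + ∑ i, ∑ j, ‖μ * lam * mn (col A i) (col A j) l m‖ ≤
      Kc (Fintype.card ι : ℝ) C * (ε * M) := by
  have hN := h.N_pos
  have hr := h.r_pos
  have hC1 := h.C_one
  have hC : 0 < C := lt_of_lt_of_le one_pos h.C_one
  have hM0 : 0 ≤ M := (norm_nonneg _).trans (hM i0 i1)
  have hδ0 : 0 < δ := by
    by_contra hcon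
    have : C * δ ≤ 0 := mul_nonpos_of_nonneg_of_nonpos hC.le (not_lt.1 hcon)
    linarith
  have hε0 : 0 ≤ ε := by
    by_contra hcon
    have : ε * δ < 0 := mul_neg_of_neg_of_pos (not_le.1 hcon) hδ0
    have := norm_nonneg μ
    linarith
  set n : ℝ := (Fintype.card ι : ℝ) with hn
  have hn0 : 0 ≤ n := by positivity
  have sumn : ∀ c : ℝ, ∑ _i : ι, c = n * c := fun c => by
    simp [hn]
  -- sizes
  have sc : ∀ i x, ‖col A i x‖ ≤ C * N := fun i x => h.size x i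
  have sq : ∀ x, ‖(A *ᵥ q) x‖ ≤ n * (C ^ 2 * N) := by
    intro x
    refine (norm_sum_le _ _).trans ?_
    rw [← sumn]
    refine Finset.sum_le_sum fun i _ => ?_
    rw [norm_mul]
    calc ‖A x i‖ * ‖q i‖ ≤ C * N * C :=
          mul_le_mul (h.size x i) (hq i) (norm_nonneg _) (by positivity)
      _ = _ := by ring
  have so : ∀ x, ‖(A *ᵥ o) x‖ ≤ n * (C ^ 2 * (δ * N)) := by
    intro x
    refine (norm_sum_le _ _).trans ?_
    rw [← sumn]
    refine Finset.sum_le_sum fun i _ => ?_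
    rw [norm_mul]
    calc ‖A x i‖ * ‖o i‖ ≤ C * N * (C * δ) :=
          mul_le_mul (h.size x i) ((norm_le_pi_norm o i).trans hoδ) (norm_nonneg _)
            (by positivity)
      _ = _ := by ring
  have sp : ∀ x, ‖(A *ᵥ (η + o)) x‖ ≤ (1 + n) * (C ^ 2 * (δ * N)) := by
    intro x
    rw [Matrix.mulVec_add, Pi.add_apply]
    refine (norm_add_le _ _).trans ?_
    have a1 := h.small x
    have a2 := so x
    have a3 : C * (r * N) ≤ C * (C * δ * N) :=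
      mul_le_mul_of_nonneg_left (mul_le_mul_of_nonneg_right hrδ hN.le) hC.le
    nlinarith
  have hlδ : ‖lam‖ * δ ≤ ε * δ := (mul_le_mul_of_nonneg_left ht (norm_nonneg _)).trans hl
  have hσl : ‖σ‖ * ‖lam‖ ≤ C * (ε * δ) := by
    calc ‖σ‖ * ‖lam‖ ≤ C * t * ‖lam‖ := mul_le_mul_of_nonneg_right hσ (norm_nonneg _)
      _ = C * (‖lam‖ * t) := by ring
      _ ≤ C * (ε * δ) := mul_le_mul_of_nonneg_left hl hC.le
  -- the four sums
  have t1 : ∑ i, ‖μ * mn (col A i) (A *ᵥ q) l m‖ ≤ n * (ε * δ * (2 * (C * N * (n * (C ^ 2 * N))))) := by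
    rw [← sumn]
    refine Finset.sum_le_sum fun i _ => ?_
    rw [norm_mul]
    exact mul_le_mul hμ (norm_mn_le (sc i) sq l m) (norm_nonneg _) (by positivity)
  have t2 : ∑ j, ‖σ * lam * mn (col A j) (A *ᵥ q) l m + lam * mn (A *ᵥ (η + o)) (col A j) l m‖ ≤
      n * (C * (ε * δ) * (2 * (C * N * (n * (C ^ 2 * N))))) +
        n * (2 * ((1 + n) * (C ^ 2 * N) * (C * N)) * (ε * δ)) := by
    rw [← mul_add, ← sumn]
    refine Finset.sum_le_sum fun j _ => ?_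
    refine (norm_add_le _ _).trans (add_le_add ?_ ?_)
    · rw [norm_mul, norm_mul]
      exact mul_le_mul hσl (norm_mn_le (sc j) sq l m) (norm_nonneg _) (by positivity)
    · rw [norm_mul]
      calc ‖lam‖ * ‖mn (A *ᵥ (η + o)) (col A j) l m‖
          ≤ ‖lam‖ * (2 * ((1 + n) * (C ^ 2 * (δ * N)) * (C * N))) :=
            mul_le_mul_of_nonneg_left (norm_mn_le sp (sc j) l m) (norm_nonneg _)
        _ = 2 * ((1 + n) * (C ^ 2 * N) * (C * N)) * (‖lam‖ * δ) := by ring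
        _ ≤ _ := mul_le_mul_of_nonneg_left hlδ (by positivity)
  have t3 : ∑ i, ∑ j, ‖μ * lam * mn (col A i) (col A j) l m‖ ≤
      n * (n * (ε * δ * (2 * (C * N * (C * N))))) := by
    rw [← sumn]
    refine Finset.sum_le_sum fun i _ => ?_
    rw [← sumn]
    refine Finset.sum_le_sum fun j _ => ?_
    rw [norm_mul]
    refine mul_le_mul ?_ (norm_mn_le (sc i) (sc j) l m) (norm_nonneg _) (by positivity)
    rw [norm_mul]
    calc ‖μ‖ * ‖lam‖ ≤ ε * δ * ‖lam‖ := mul_le_mul_of_nonneg_right hμ (norm_nonneg _)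
      _ = ε * (‖lam‖ * δ) := by ring
      _ ≤ ε * (ε * δ) := mul_le_mul_of_nonneg_left hlδ hε0
      _ ≤ 1 * (ε * δ) := mul_le_mul_of_nonneg_right hε1 (by positivity)
      _ = ε * δ := one_mul _
  have low := h.low ho0 ho1 hq0 hq1 hM
  rw [← hn] at low
  have hδN : δ * N ^ 2 ≤ C * ((3 * n ^ 2 * C ^ 2 + n ^ 2 * C ^ 2 * (1 + C) ^ 2) * M) := by
    calc δ * N ^ 2 ≤ C * max r ‖o‖ * N ^ 2 := mul_le_mul_of_nonneg_right hδ (by positivity)
      _ = C * (N ^ 2 * max r ‖o‖) := by ring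
      _ ≤ _ := mul_le_mul_of_nonneg_left low hC.le
  calc _ ≤ n * (ε * δ * (2 * (C * N * (n * (C ^ 2 * N))))) +
        (n * (C * (ε * δ) * (2 * (C * N * (n * (C ^ 2 * N))))) +
        n * (2 * ((1 + n) * (C ^ 2 * N) * (C * N)) * (ε * δ))) +
        n * (n * (ε * δ * (2 * (C * N * (C * N))))) := add_le_add (add_le_add t1 t2) t3
    _ = (2 * n ^ 2 * C ^ 3 + 2 * n ^ 2 * C ^ 4 + 2 * n * (1 + n) * C ^ 3 + 2 * n ^ 2 * C ^ 2) *
          ε * (δ * N ^ 2) := by ring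
    _ ≤ (2 * n ^ 2 * C ^ 3 + 2 * n ^ 2 * C ^ 4 + 2 * n * (1 + n) * C ^ 3 + 2 * n ^ 2 * C ^ 2) *
          ε * (C * ((3 * n ^ 2 * C ^ 2 + n ^ 2 * C ^ 2 * (1 + C) ^ 2) * M)) :=
        mul_le_mul_of_nonneg_left hδN (by positivity)
    _ = _ := by simp only [Kc]; ring

/-! ## the chart -/

/-- moving the base point along the line does not change the minors -/
theorem mn_slide (p q : ι → 𝕜) (s : 𝕜) (i j : ι) : mn (p + s • q) q i j = mn p q i j := by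
  rw [mn_add_left, mn_smul_left, mn_self, mul_zero, add_zero]

/-- **the chart identity**: the line `{e₀ + s e₁ + (a + s v)}` is the line through `η + o` with
direction `e₁ + v`, where `η = e₀ + s_k e₁ + x_k` and `o = a + s_k v - x_k`. -/
theorem chart (A : Matrix ι ι 𝕜) (e0 e1 a v xk : ι → 𝕜) (sk : 𝕜) (i j : ι) :
    mn (A *ᵥ (e0 + a)) (A *ᵥ (e1 + v)) i j =
      mn (A *ᵥ ((e0 + sk • e1 + xk) + (a + sk • v - xk))) (A *ᵥ (e1 + v)) i j := by
  have : (e0 + sk • e1 + xk) + (a + sk • v - xk) = (e0 + a) + sk • (e1 + v) := by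
    rw [smul_add]; abel
  rw [this, Matrix.mulVec_add A (e0 + a), Matrix.mulVec_smul, mn_slide]

/-- **[N-K-PL]**: the minors of `A L` on the cell `v = v_a + λ y'`, `a + s_g v = y + μ x`:
exactly `A_0 + Σ x_i A_i + Σ y'_j A'_j + Σ x_i y'_j A''_ij`, and (for the same lines) the sum of
the norms of the coefficients is at most `Kc n C ε max |A_0|`.  `o` = the offset of the centre. -/
theorem Nw.chart_cell (h : Nw i0 A B η N r C) {e0 e1 a v xk x y va y' : ι → 𝕜}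
    {sk sg μ lam : 𝕜} (he : η = e0 + sk • e1 + xk)
    (h1 : a + sg • v = y + μ • x) (h2 : v = va + lam • y')
    (ho0 : (y + (sk - sg) • va - xk) i0 = 0) (ho1 : (y + (sk - sg) • va - xk) i1 = 0)
    (hq0 : (e1 + va) i0 = 0) (hq1 : (e1 + va) i1 = 1) (hq : ∀ i, ‖(e1 + va) i‖ ≤ C)
    {δ t ε : ℝ} (hε1 : ε ≤ 1) (hδ : δ ≤ C * max r ‖y + (sk - sg) • va - xk‖)
    (hoδ : ‖y + (sk - sg) • va - xk‖ ≤ C * δ)
    (hrδ : r ≤ C * δ) (ht : δ ≤ t) (hμ : ‖μ‖ ≤ ε * δ) (hl : ‖lam‖ * t ≤ ε * δ)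
    (hσ : ‖sk - sg‖ ≤ C * t) :
    ∃ (a0 : ι → ι → 𝕜) (a1 a2 : ι → ι → ι → 𝕜) (a3 : ι → ι → ι → ι → 𝕜),
      (a0 = fun l m => mn (A *ᵥ (η + (y + (sk - sg) • va - xk))) (A *ᵥ (e1 + va)) l m) ∧
      (a1 = fun i l m => μ * mn (col A i) (A *ᵥ (e1 + va)) l m) ∧
      (a2 = fun j l m => (sk - sg) * lam * mn (col A j) (A *ᵥ (e1 + va)) l m
        + lam * mn (A *ᵥ (η + (y + (sk - sg) • va - xk))) (col A j) l m) ∧
      (a3 = fun i j l m => μ * lam * mn (col A i) (col A j) l m) ∧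
      (∀ l m, mn (A *ᵥ (e0 + a)) (A *ᵥ (e1 + v)) l m =
        a0 l m + ∑ i, x i * a1 i l m + ∑ j, y' j * a2 j l m
          + ∑ i, ∑ j, x i * y' j * a3 i j l m) ∧
      ∀ M : ℝ, (∀ l m, ‖a0 l m‖ ≤ M) → ∀ l m,
        ∑ i, ‖a1 i l m‖ + ∑ j, ‖a2 j l m‖ + ∑ i, ∑ j, ‖a3 i j l m‖ ≤
          Kc (Fintype.card ι : ℝ) C * (ε * M) := by
  refine ⟨_, _, _, _, rfl, rfl, rfl, rfl, fun l m => ?_, fun M hM l m =>
    h.cell ho0 ho1 hq0 hq1 hq hε1 hδ hoδ hrδ ht hμ hl hσ hM l m⟩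
  rw [chart A e0 e1 a v xk sk l m, ← he]
  have e : a + sk • v - xk =
      (y + (sk - sg) • va - xk) + μ • x + ((sk - sg) * lam) • y' := by
    have e : a + sk • v = (a + sg • v) + (sk - sg) • v := by rw [sub_smul]; abel
    rw [e, h1, h2, smul_add, smul_smul]; abel
  have e' : e1 + v = (e1 + va) + lam • y' := by rw [h2, add_assoc]
  rw [e, e', ← expand A (η + (y + (sk - sg) • va - xk)) (e1 + va) x y' μ lam (sk - sg) l m]
  simp only [add_assoc]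

/-- the offset in the box coordinates: `a + s_g v = y + μ x`, `v = v_a + λ y'`. -/
theorem offset (a v xk y x va y' : ι → 𝕜) (sk sg μ lam : 𝕜) (h1 : a + sg • v = y + μ • x)
    (h2 : v = va + lam • y') :
    a + sk • v - xk = (y + (sk - sg) • va - xk) + μ • x + ((sk - sg) * lam) • y' := by
  have e : a + sk • v = (a + sg • v) + (sk - sg) • v := by rw [sub_smul]; abel
  rw [e, h1, h2, smul_add, smul_smul]; abel

end Vale.Agent.P092.H835.Pl
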