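import Vale.Agent.P092.H87.NGeo
import Vale.Agent.P092.H835.Pl

/-!
# P092, Team N, [N-K-PL]: from `H87.N.NWn` to `H835.Pl.Nw`

For a wall of HYPERPLANE type (`k ~ (N, .., N, rN)`): `g = (k⁻¹)ᵀ`, `h = kᵀ`, `b = N`,
`a = 1/(rN)`.
-/

namespace Vale.Agent.P092.H835.Pl

open Finset Matrix Vale.Agent.P092.H87.N

variable {k : Type*} [NormedField k] {ι : Type*} [Fintype ι] [DecidableEq ι]

/-- **the near-wall data of helper87 are near-wall data in the sense of `Nw`** -/
theorem nw_of_NWn {C a b : ℝ} {g h : Matrix ι ι k} {i j : ι} (H : NWn C a b g h i j)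
    (hab : 1 ≤ a * b) : Nw j hᵀ gᵀ (yy g i j) b (1 / (a * b)) C := by
  have ha := H.a_pos
  have hb := H.b_pos
  have hC := H.C_pos
  have e1 : C / (1 / (a * b) * b) = C * a := by field_simp
  refine ⟨H.b_pos, by positivity, ?_, H.one_le, fun w => ?_, ?_, H.yy_j, fun x => ?_,
    fun x y => ?_, fun x => ?_⟩
  · rw [div_le_one (by positivity)]; exact hab
  · rw [Matrix.mulVec_mulVec, ← Matrix.transpose_mul, H.hg, Matrix.transpose_one,
      Matrix.one_mulVec]
  · refine ⟨yy g i j, fun x => g x j, (EE g i j)ᵀ, fun x y => ?_, fun x => ?_, fun x y => ?_,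
      fun x y => ?_⟩
    · have := H.ne
      simp only [Matrix.transpose_apply, EE, yy, Matrix.of_apply]
      field_simp
      ring
    · rw [H.yy_j, one_mul]
    · rw [e1, norm_mul]
      have h1 : ‖yy g i j x‖ ≤ 1 := (norm_le_pi_norm _ x).trans H.yy_norm.le
      calc ‖yy g i j x‖ * ‖g y j‖ ≤ 1 * ‖g i j‖ :=
            mul_le_mul h1 (H.piv y j) (norm_nonneg _) zero_le_one
        _ ≤ C * a := by rw [one_mul]; exact H.hi
    · exact H.ee y x
  · exact ((norm_le_pi_norm _ x).trans H.yy_norm.le).trans H.one_le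
  · exact H.inv y x
  · have e2 : (hᵀ *ᵥ yy g i j) x = (1 : Matrix ι ι k) i x / g i j := by
      rw [← H.gh, Matrix.mul_apply, Finset.sum_div]
      simp only [Matrix.mulVec, dotProduct, Matrix.transpose_apply, yy]
      exact Finset.sum_congr rfl fun y _ => by ring
    have e3 : C * (1 / (a * b) * b) = C / a := by field_simp
    rw [e2, e3, norm_div]
    have h1 : ‖(1 : Matrix ι ι k) i x‖ ≤ 1 := by
      rw [Matrix.one_apply]; split_ifs <;> simp
    rw [div_le_div_iff₀ H.n_pos ha]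
    calc ‖(1 : Matrix ι ι k) i x‖ * a ≤ 1 * (C * ‖g i j‖) :=
          mul_le_mul h1 H.lo ha.le zero_le_one
      _ = C * ‖g i j‖ := one_mul _

end Vale.Agent.P092.H835.Pl
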